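import Mathlib

/-!
P123 (Crouzeix, constant 2): singular vectors in finite dimension.
-/

namespace Vale.Agent.P123

open scoped InnerProductSpace

variable {H : Type*} [NormedAddCommGroup H] [InnerProductSpace ℂ H] [CompleteSpace H]

omit [CompleteSpace H] in
/-- the norm of an operator on a finite dimensional space is attained -/
theorem exists_norm_attained [FiniteDimensional ℂ H] (T : H →L[ℂ] H) (hT : T ≠ 0) :
    ∃ x : H, ‖x‖ = 1 ∧ ‖T x‖ = ‖T‖ := by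
  have hne : ∃ z : H, z ≠ 0 := by
    by_contra hcon
    push Not at hcon
    apply hT
    ext z
    rw [hcon z]; simp
  obtain ⟨z, hz⟩ := hne
  have : ProperSpace H := FiniteDimensional.proper ℂ H
  have hsph : (Metric.sphere (0 : H) 1).Nonempty := by
    refine ⟨((‖z‖⁻¹ : ℝ) : ℂ) • z, ?_⟩
    rw [mem_sphere_zero_iff_norm, norm_smul, Complex.norm_real, norm_inv, norm_norm,
      inv_mul_cancel₀ (norm_ne_zero_iff.2 hz)]
  obtain ⟨x, hx, hmax⟩ := (isCompact_sphere (0 : H) 1).exists_isMaxOn hsph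
    (T.continuous.norm.continuousOn)
  have hx1 : ‖x‖ = 1 := mem_sphere_zero_iff_norm.1 hx
  refine ⟨x, hx1, le_antisymm ?_ ?_⟩
  · calc ‖T x‖ ≤ ‖T‖ * ‖x‖ := T.le_opNorm x
      _ = ‖T‖ := by rw [hx1, mul_one]
  · apply ContinuousLinearMap.opNorm_le_bound _ (norm_nonneg _)
    intro w
    by_cases hw : w = 0
    · rw [hw]; simp
    have hw' : 0 < ‖w‖ := norm_pos_iff.2 hw
    have h1 : ((‖w‖⁻¹ : ℝ) : ℂ) • w ∈ Metric.sphere (0 : H) 1 := by
      rw [mem_sphere_zero_iff_norm, norm_smul, Complex.norm_real, norm_inv, norm_norm,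
        inv_mul_cancel₀ hw'.ne']
    have h2 : ‖T (((‖w‖⁻¹ : ℝ) : ℂ) • w)‖ ≤ ‖T x‖ := hmax h1
    rw [map_smul, norm_smul, Complex.norm_real, norm_inv, norm_norm, inv_mul_le_iff₀ hw'] at h2
    linarith

/-- singular vectors for the largest singular value -/
theorem exists_singular [FiniteDimensional ℂ H] (T : H →L[ℂ] H) (hT : T ≠ 0) :
    ∃ x y : H, ‖x‖ = 1 ∧ ‖y‖ = 1 ∧ T x = ((‖T‖ : ℝ) : ℂ) • y ∧
      ContinuousLinearMap.adjoint T y = ((‖T‖ : ℝ) : ℂ) • x := by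
  obtain ⟨x, hx, hTx⟩ := exists_norm_attained T hT
  have hK : 0 < ‖T‖ := norm_pos_iff.2 hT
  have hKc : ((‖T‖ : ℝ) : ℂ) ≠ 0 := Complex.ofReal_ne_zero.2 hK.ne'
  set y : H := ((‖T‖ : ℝ) : ℂ)⁻¹ • T x with hy
  have hTy : T x = ((‖T‖ : ℝ) : ℂ) • y := by
    rw [hy, smul_smul, mul_inv_cancel₀ hKc, one_smul]
  have hy1 : ‖y‖ = 1 := by
    rw [hy, norm_smul, norm_inv, Complex.norm_real, norm_norm, hTx, inv_mul_cancel₀ hK.ne']
  refine ⟨x, y, hx, hy1, hTy, ?_⟩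
  have h1 : ‖ContinuousLinearMap.adjoint T y‖ ≤ ‖T‖ := by
    calc ‖ContinuousLinearMap.adjoint T y‖ ≤ ‖ContinuousLinearMap.adjoint T‖ * ‖y‖ :=
          ContinuousLinearMap.le_opNorm _ _
      _ = ‖T‖ := by rw [hy1, mul_one]; exact LinearIsometryEquiv.norm_map _ _
  have h2 : ⟪ContinuousLinearMap.adjoint T y, x⟫_ℂ = ((‖T‖ : ℝ) : ℂ) := by
    rw [ContinuousLinearMap.adjoint_inner_left, hTy, inner_smul_right,
      inner_self_eq_norm_sq_to_K, hy1]
    simp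
  have h3 : ‖ContinuousLinearMap.adjoint T y - ((‖T‖ : ℝ) : ℂ) • x‖ ^ 2 ≤ 0 := by
    rw [@norm_sub_sq ℂ, inner_smul_right, h2, norm_smul, hx, Complex.norm_real, norm_norm]
    have h4 : RCLike.re (((‖T‖ : ℝ) : ℂ) * ((‖T‖ : ℝ) : ℂ)) = ‖T‖ * ‖T‖ := by
      rw [← Complex.ofReal_mul]; exact Complex.ofReal_re _
    rw [h4]
    nlinarith [norm_nonneg (ContinuousLinearMap.adjoint T y)]
  have h5 : ‖ContinuousLinearMap.adjoint T y - ((‖T‖ : ℝ) : ℂ) • x‖ = 0 := by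
    have := le_antisymm h3 (sq_nonneg _)
    exact pow_eq_zero_iff (two_ne_zero) |>.1 this
  exact sub_eq_zero.1 (norm_eq_zero.1 h5)

end Vale.Agent.P123
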