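import Vale.Agent.Lib.P123T.Defs
import Vale.Agent.Lib.P123T.Sing
import Vale.Agent.Lib.P123F.AbsIneq

/-!
P123: the abstract inequality giving the constant `2` (finite dimension, exact singular vectors).
-/

namespace Vale.Agent.P123

open MeasureTheory Filter Topology
open scoped Real InnerProductSpace BoundedContinuousFunction ComplexConjugate

/-! ### positive functionals on bounded continuous functions -/

section positive

variable {ℓ : (ℝ →ᵇ ℂ) →ₗ[ℂ] ℂ}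

theorem pf_re_zero (hp : ∀ k : ℝ →ᵇ ℂ, (∀ t, 0 ≤ (k t).re) → 0 ≤ (ℓ k).re) (k : ℝ →ᵇ ℂ)
    (hk : ∀ t, (k t).re = 0) : (ℓ k).re = 0 := by
  have h1 := hp k (fun t => (hk t).ge)
  have h2 := hp (-k) (fun t => by
    rw [BoundedContinuousFunction.neg_apply, Complex.neg_re, hk t, neg_zero])
  rw [map_neg, Complex.neg_re] at h2
  linarith

theorem pf_star (hp : ∀ k : ℝ →ᵇ ℂ, (∀ t, 0 ≤ (k t).re) → 0 ≤ (ℓ k).re) (k : ℝ →ᵇ ℂ) :
    ℓ (star k) = star (ℓ k) := by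
  have h1 := pf_re_zero hp (k - star k) (fun t => by
    rw [BoundedContinuousFunction.sub_apply, BoundedContinuousFunction.star_apply, Complex.sub_re]
    simp)
  have h2 := pf_re_zero hp (Complex.I • k + Complex.I • star k) (fun t => by
    rw [BoundedContinuousFunction.add_apply, BoundedContinuousFunction.smul_apply,
      BoundedContinuousFunction.smul_apply, BoundedContinuousFunction.star_apply, Complex.add_re]
    simp)
  rw [map_sub, Complex.sub_re] at h1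
  rw [map_add, map_smul, map_smul, Complex.add_re] at h2
  simp only [smul_eq_mul, Complex.mul_re, Complex.I_re, Complex.I_im, zero_mul, one_mul,
    zero_sub] at h2
  apply Complex.ext
  · rw [Complex.star_def, Complex.conj_re]; linarith
  · rw [Complex.star_def, Complex.conj_im]; linarith

theorem pf_sq_nonneg (hp : ∀ k : ℝ →ᵇ ℂ, (∀ t, 0 ≤ (k t).re) → 0 ≤ (ℓ k).re) (k : ℝ →ᵇ ℂ) :
    0 ≤ (ℓ (star k * k)).re := by
  apply hp
  intro t
  rw [BoundedContinuousFunction.mul_apply, BoundedContinuousFunction.star_apply, Complex.star_def,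
    mul_comm, Complex.mul_conj]
  simp only [Complex.ofReal_re]
  exact Complex.normSq_nonneg _

/-- Cauchy-Schwarz -/
theorem pf_cs (hp : ∀ k : ℝ →ᵇ ℂ, (∀ t, 0 ≤ (k t).re) → 0 ≤ (ℓ k).re) (g r : ℝ →ᵇ ℂ) :
    ‖ℓ (star g * r)‖ ^ 2 ≤ (ℓ (star g * g)).re * (ℓ (star r * r)).re := by
  set w := ℓ (star g * r) with hw
  set a := (ℓ (star g * g)).re with ha
  set b := (ℓ (star r * r)).re with hb
  have ha0 : 0 ≤ a := pf_sq_nonneg hp g
  have hb0 : 0 ≤ b := pf_sq_nonneg hp r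
  have hw2 : ℓ (star r * g) = star w := by
    rw [hw, ← pf_star hp, star_mul, star_star]
  have key : ∀ t : ℝ, 0 ≤ (‖w‖ ^ 2 * a) * (t * t) + (-(2 * ‖w‖ ^ 2)) * t + b := by
    intro t
    have h1 := pf_sq_nonneg hp (r - (w * (t : ℂ)) • g)
    have e : star (r - (w * (t : ℂ)) • g) * (r - (w * (t : ℂ)) • g)
        = star r * r - (w * (t : ℂ)) • (star r * g) - (star (w * (t : ℂ))) • (star g * r)
          + (star (w * (t : ℂ)) * (w * (t : ℂ))) • (star g * g) := by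
      ext s
      simp only [BoundedContinuousFunction.mul_apply, BoundedContinuousFunction.star_apply,
        BoundedContinuousFunction.sub_apply, BoundedContinuousFunction.add_apply,
        BoundedContinuousFunction.smul_apply, smul_eq_mul, star_sub, star_mul']
      ring
    rw [e, map_add, map_sub, map_sub, map_smul, map_smul, map_smul, hw2, ← hw] at h1
    have e1 : ((w * (t : ℂ)) • star w).re = ‖w‖ ^ 2 * t := by
      rw [smul_eq_mul, show w * (t : ℂ) * star w = (w * (starRingEnd ℂ) w) * (t : ℂ) by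
        rw [Complex.star_def]; ring, Complex.mul_conj, ← Complex.ofReal_mul, Complex.ofReal_re,
        Complex.normSq_eq_norm_sq]
    have e2 : ((star (w * (t : ℂ))) • w).re = ‖w‖ ^ 2 * t := by
      rw [smul_eq_mul, Complex.star_def, map_mul, Complex.conj_ofReal,
        show (starRingEnd ℂ) w * (t : ℂ) * w = (w * (starRingEnd ℂ) w) * (t : ℂ) by ring,
        Complex.mul_conj, ← Complex.ofReal_mul, Complex.ofReal_re, Complex.normSq_eq_norm_sq]
    have e3 : ((star (w * (t : ℂ)) * (w * (t : ℂ))) • ℓ (star g * g)).re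
        = ‖w‖ ^ 2 * a * (t * t) := by
      have : star (w * (t : ℂ)) * (w * (t : ℂ)) = ((‖w‖ ^ 2 * (t * t) : ℝ) : ℂ) := by
        rw [Complex.star_def, map_mul, Complex.conj_ofReal,
          show (starRingEnd ℂ) w * (t : ℂ) * (w * (t : ℂ))
            = (w * (starRingEnd ℂ) w) * ((t : ℂ) * (t : ℂ)) by ring, Complex.mul_conj,
          Complex.normSq_eq_norm_sq]
        push_cast
        ring
      rw [this, smul_eq_mul, Complex.re_ofReal_mul]
      ring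
    rw [Complex.add_re, Complex.sub_re, Complex.sub_re, e1, e2, e3] at h1
    linarith
  have hd := discrim_le_zero key
  unfold discrim at hd
  by_cases hW : ‖w‖ ^ 2 = 0
  · rw [hW]; positivity
  · have hWp : 0 < ‖w‖ ^ 2 := lt_of_le_of_ne (by positivity) (Ne.symm hW)
    by_contra hcon
    push Not at hcon
    nlinarith [mul_pos hWp (sub_pos.2 hcon)]

/-- Jensen for a positive unital functional -/
theorem pf_jensen (hp : ∀ k : ℝ →ᵇ ℂ, (∀ t, 0 ≤ (k t).re) → 0 ≤ (ℓ k).re) (h1 : ℓ 1 = 1)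
    (k : ℝ →ᵇ ℂ) : ‖ℓ k‖ ^ 2 ≤ (ℓ (star k * k)).re := by
  have h := pf_cs hp 1 k
  rw [star_one, one_mul, one_mul, h1, Complex.one_re, one_mul] at h
  exact h

end positive

variable {H : Type*} [NormedAddCommGroup H] [InnerProductSpace ℂ H] [CompleteSpace H]

/-- abstract data -/
structure Data (G : Subalgebra ℂ ((ℝ →ᵇ ℂ) × (H →L[ℂ] H))) where
  L : (ℝ →ᵇ ℂ) →L[ℂ] ℂ
  N : (ℝ →ᵇ ℂ) →L[ℂ] (ℝ →ᵇ ℂ)
  X0 : Submodule ℂ (ℝ →ᵇ ℂ)
  D : H → H → (ℝ →ᵇ ℂ)
  L_one : L 1 = 1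
  L_pos : ∀ k : ℝ →ᵇ ℂ, (∀ t, 0 ≤ (k t).re) → 0 ≤ (L k).re
  N_one : N 1 = 1
  N_pos : ∀ k : ℝ →ᵇ ℂ, (∀ t, 0 ≤ (k t).re) → ∀ s, 0 ≤ (N k s).re
  L_N : ∀ k : ℝ →ᵇ ℂ, L (N k) = L k
  X0_mul : ∀ u ∈ X0, ∀ v ∈ X0, u * v ∈ X0
  X0_L : ∀ u ∈ X0, L u = 0
  X0_N : ∀ u ∈ X0, N (star u) ∈ X0
  X0_G : ∀ u ∈ X0, ∃ q ∈ G, q.1 = star u + N (star u)
  D_ext : ∀ x y, ∀ v ∈ X0, L (v * D x y) = 0
  D_G : ∀ q ∈ G, ∀ x y, L (q.1 * D x y) = ⟪y, q.2 x⟫_ℂ
  D_approx : ∀ x y, ∀ ε > 0, ∃ a ∈ X0,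
    (L (star (D x y - ⟪y, x⟫_ℂ • 1 - a) * (D x y - ⟪y, x⟫_ℂ • 1 - a))).re ≤ ε
  C : ℝ
  C_nonneg : 0 ≤ C
  D_bound : ∀ x y, ‖D x y‖ ≤ C * ‖x‖ * ‖y‖
  D_add : ∀ x y z, D x (y + z) = D x y + D x z
  D_smul : ∀ (c : ℂ) x y, D x (c • y) = star c • D x y
  D_re : ∀ x t, 0 ≤ (D x x t).re
  D_cs : ∀ x y t, ‖D x y t + star (D y x t)‖ ^ 2 ≤ 4 * (D x x t).re * (D y y t).re
  D_comm : ∀ q ∈ G, ∀ x y, D (q.2 x) y = D x (ContinuousLinearMap.adjoint q.2 y)

namespace Data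

variable {G : Subalgebra ℂ ((ℝ →ᵇ ℂ) × (H →L[ℂ] H))} (S : Data G)

theorem Lpos' : ∀ k : ℝ →ᵇ ℂ, (∀ t, 0 ≤ (k t).re) → 0 ≤ ((S.L : (ℝ →ᵇ ℂ) →ₗ[ℂ] ℂ) k).re := S.L_pos

/-- the functional `k ↦ N k s` -/
noncomputable def Ns (s : ℝ) : (ℝ →ᵇ ℂ) →ₗ[ℂ] ℂ where
  toFun k := S.N k s
  map_add' k l := by rw [map_add, BoundedContinuousFunction.add_apply]
  map_smul' c k := by rw [map_smul, BoundedContinuousFunction.smul_apply, RingHom.id_apply]

/-- square of the `L²` norm -/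
noncomputable def n2 (k : ℝ →ᵇ ℂ) : ℝ := (S.L (star k * k)).re

theorem n2_nonneg (k : ℝ →ᵇ ℂ) : 0 ≤ S.n2 k := pf_sq_nonneg S.Lpos' k

theorem n2_star (k : ℝ →ᵇ ℂ) : S.n2 (star k) = S.n2 k := by
  unfold n2
  rw [star_star, mul_comm]

theorem cs (g r : ℝ →ᵇ ℂ) : ‖S.L (g * r)‖ ^ 2 ≤ S.n2 g * S.n2 r := by
  have h := pf_cs S.Lpos' (star g) r
  rw [star_star] at h
  rw [← S.n2_star g]
  unfold n2
  rw [star_star]
  exact h

theorem N_star (k : ℝ →ᵇ ℂ) : S.N (star k) = star (S.N k) := by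
  ext s
  exact pf_star (ℓ := S.Ns s) (fun k hk => S.N_pos k hk s) k

theorem n2_N (k : ℝ →ᵇ ℂ) : S.n2 (S.N k) ≤ S.n2 k := by
  unfold n2
  rw [← S.L_N (star k * k)]
  have h := S.L_pos (S.N (star k * k) - star (S.N k) * S.N k) (fun s => by
    have h1 := pf_jensen (ℓ := S.Ns s) (fun k hk => S.N_pos k hk s)
      (by change S.N 1 s = 1; rw [S.N_one]; rfl) k
    change ‖S.N k s‖ ^ 2 ≤ (S.N (star k * k) s).re at h1
    rw [BoundedContinuousFunction.sub_apply, BoundedContinuousFunction.mul_apply,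
      BoundedContinuousFunction.star_apply, Complex.sub_re, Complex.star_def,
      mul_comm ((starRingEnd ℂ) (S.N k s)), Complex.mul_conj, Complex.ofReal_re,
      Complex.normSq_eq_norm_sq]
    linarith)
  rw [map_sub, Complex.sub_re] at h
  linarith

/-- the centred densities -/
noncomputable def D' (x y : H) : ℝ →ᵇ ℂ := S.D x y - ⟪y, x⟫_ℂ • 1

theorem L_D (x y : H) : S.L (S.D x y) = ⟪y, x⟫_ℂ := by
  have := S.D_G 1 G.one_mem x y
  rw [show (1 : (ℝ →ᵇ ℂ) × (H →L[ℂ] H)).1 = 1 from rfl, one_mul,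
    show (1 : (ℝ →ᵇ ℂ) × (H →L[ℂ] H)).2 x = x from rfl] at this
  exact this

theorem L_D' (x y : H) : S.L (S.D' x y) = 0 := by
  unfold D'
  rw [map_sub, map_smul, S.L_one, S.L_D, smul_eq_mul, mul_one, sub_self]

theorem eq_zero_of_le {w : ℂ} {C : ℝ} (h : ∀ ε : ℝ, 0 < ε → ε ≤ 1 → ‖w‖ ^ 2 ≤ C * ε) : w = 0 := by
  have hC : 0 ≤ C := by
    have := h 1 one_pos le_rfl
    nlinarith [sq_nonneg ‖w‖]
  by_contra hw
  have hw0 : 0 < ‖w‖ ^ 2 := by positivity
  set ε := min 1 (‖w‖ ^ 2 / (2 * (C + 1))) with hε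
  have hε0 : 0 < ε := by positivity
  have h1 := h ε hε0 (min_le_left _ _)
  have h2 : C * ε ≤ (C + 1) * (‖w‖ ^ 2 / (2 * (C + 1))) :=
    mul_le_mul (by linarith) (min_le_right _ _) hε0.le (by positivity)
  have h3 : (C + 1) * (‖w‖ ^ 2 / (2 * (C + 1))) = ‖w‖ ^ 2 / 2 := by field_simp
  linarith

theorem L_D'_mul (x y x' y' : H) : S.L (S.D' x y * S.D' x' y') = 0 := by
  apply eq_zero_of_le (C := S.n2 (S.D' x' y'))
  intro ε hε _
  obtain ⟨a, ha, hr⟩ := S.D_approx x y ε hε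
  have h1 : S.L (a * S.D' x' y') = 0 := by
    unfold D'
    rw [mul_sub, map_sub, S.D_ext x' y' a ha, mul_smul_comm, mul_one, map_smul, S.X0_L a ha,
      smul_zero, sub_zero]
  have h2 : S.L (S.D' x y * S.D' x' y') = S.L ((S.D' x y - a) * S.D' x' y') := by
    rw [sub_mul, map_sub, h1, sub_zero]
  rw [h2]
  refine (S.cs _ _).trans ?_
  rw [mul_comm]
  exact mul_le_mul_of_nonneg_left hr (S.n2_nonneg _)

theorem norm_add3_sq (a b c : ℂ) : ‖a + b - c‖ ^ 2 ≤ 3 * (‖a‖ ^ 2 + ‖b‖ ^ 2 + ‖c‖ ^ 2) := by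
  have h1 : ‖a + b - c‖ ≤ ‖a‖ + ‖b‖ + ‖c‖ := (norm_sub_le _ _).trans (by
    have := norm_add_le a b
    linarith)
  have h2 := pow_le_pow_left₀ (norm_nonneg _) h1 2
  nlinarith [sq_nonneg (‖a‖ - ‖b‖), sq_nonneg (‖b‖ - ‖c‖), sq_nonneg (‖a‖ - ‖c‖)]

theorem L_D'_N (x y : H) : S.L (S.D' x y * S.N (star (S.D' x y))) = 0 := by
  apply eq_zero_of_le (C := 3 * (2 * S.n2 (S.D' x y) + 1))
  intro ε hε hε1
  obtain ⟨a, ha, hr⟩ := S.D_approx x y ε hε
  set X := S.D' x y with hX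
  set r := X - a with hrdef
  change S.n2 r ≤ ε at hr
  have h1 : S.L (a * S.N (star a)) = 0 := S.X0_L _ (S.X0_mul _ ha _ (S.X0_N _ ha))
  have h2 : X * S.N (star X) = a * S.N (star a) + (X * S.N (star r) + r * S.N (star X)
      - r * S.N (star r)) := by
    have : star r = star X - star a := by rw [hrdef, star_sub]
    rw [this, map_sub, hrdef]
    ring
  rw [h2, map_add, h1, zero_add, map_sub, map_add]
  refine (norm_add3_sq _ _ _).trans ?_
  have e1 : ‖S.L (X * S.N (star r))‖ ^ 2 ≤ S.n2 X * ε := by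
    refine (S.cs _ _).trans (mul_le_mul_of_nonneg_left ?_ (S.n2_nonneg _))
    exact (S.n2_N _).trans (by rw [S.n2_star]; exact hr)
  have e2 : ‖S.L (r * S.N (star X))‖ ^ 2 ≤ S.n2 X * ε := by
    refine (S.cs _ _).trans ?_
    rw [mul_comm]
    refine mul_le_mul ?_ hr (S.n2_nonneg _) (S.n2_nonneg _)
    exact (S.n2_N _).trans (S.n2_star _).le
  have e3 : ‖S.L (r * S.N (star r))‖ ^ 2 ≤ ε := by
    refine (S.cs _ _).trans ?_
    have h3 : S.n2 (S.N (star r)) ≤ ε := (S.n2_N _).trans (by rw [S.n2_star]; exact hr)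
    calc S.n2 r * S.n2 (S.N (star r)) ≤ ε * ε :=
          mul_le_mul hr h3 (S.n2_nonneg _) hε.le
      _ ≤ ε := by nlinarith
  linarith

/-- left homogeneity -/
theorem D_smul_left (c : ℂ) (x y : H) : S.D (c • x) y = c • S.D x y := by
  have h := S.D_comm (algebraMap ℂ _ c) (G.algebraMap_mem c) x y
  have e1 : (algebraMap ℂ ((ℝ →ᵇ ℂ) × (H →L[ℂ] H)) c).2 = c • (1 : H →L[ℂ] H) := by
    rw [Algebra.algebraMap_eq_smul_one]; rfl
  rw [e1] at h
  have e2 : ContinuousLinearMap.adjoint (c • (1 : H →L[ℂ] H)) y = (star c) • y := by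
    rw [← ContinuousLinearMap.star_eq_adjoint, star_smul, star_one]
    simp
  rw [e2, S.D_smul, star_star] at h
  simpa using h

include S in
/-- the heart of the proof: exact singular vectors -/
theorem core {q : (ℝ →ᵇ ℂ) × (H →L[ℂ] H)} (hq : q ∈ G) (hq1 : ‖q.1‖ ≤ 1) {K : ℝ} (hK : 0 < K)
    {x y : H} (hx : ‖x‖ = 1) (hy : ‖y‖ = 1) (h1 : q.2 x = (K : ℂ) • y)
    (h2 : ContinuousLinearMap.adjoint q.2 y = (K : ℂ) • x) : K ≤ 2 := by
  have hxx : ⟪x, x⟫_ℂ = 1 := by rw [inner_self_eq_norm_sq_to_K, hx]; simp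
  have hyy : ⟪y, y⟫_ℂ = 1 := by rw [inner_self_eq_norm_sq_to_K, hy]; simp
  have hDD : S.D y y = S.D x x := by
    have h3 := S.D_comm q hq x y
    rw [h1, h2, S.D_smul_left, S.D_smul, Complex.star_def, Complex.conj_ofReal] at h3
    have hK' : (K : ℂ) ≠ 0 := by exact_mod_cast hK.ne'
    exact smul_right_injective _ hK' h3
  set X := S.D x x with hX
  set Y := S.D x y with hY
  set Z := S.D y x with hZ
  set f := q.1 with hf
  set v : ℝ →ᵇ ℂ := f * Y - (K : ℂ) • X with hv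
  set g : ℝ →ᵇ ℂ := S.N (star (X - 1)) with hg
  have hX' : S.D' x x = X - 1 := by
    unfold D'
    rw [hxx, one_smul]
  -- the integral facts
  have f1 : S.L X = 1 := by rw [hX, S.L_D, hxx]
  have f0 : S.L (X - 1) = 0 := by rw [map_sub, f1, S.L_one, sub_self]
  have f2 : S.L (X * X) = 1 := by
    have h3 := S.L_D'_mul x x x x
    rw [hX'] at h3
    have e : X * X = (X - 1) * (X - 1) + (2 : ℂ) • (X - 1) + 1 := by
      rw [two_smul]; ring
    rw [e, map_add, map_add, map_smul, h3, f0, S.L_one]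
    simp
  have f3 : S.L (Y * Z) = ((‖⟪y, x⟫_ℂ‖ ^ 2 : ℝ) : ℂ) := by
    have h3 := S.L_D'_mul x y y x
    have hY' : Y = S.D' x y + ⟪y, x⟫_ℂ • 1 := by unfold D'; rw [sub_add_cancel]
    have hZ' : Z = S.D' y x + ⟪x, y⟫_ℂ • 1 := by unfold D'; rw [sub_add_cancel]
    have e : Y * Z = S.D' x y * S.D' y x + ⟪x, y⟫_ℂ • S.D' x y + ⟪y, x⟫_ℂ • S.D' y x
        + (⟪y, x⟫_ℂ * ⟪x, y⟫_ℂ) • (1 : ℝ →ᵇ ℂ) := by
      rw [hY', hZ']
      ext t
      have h1t : (1 : ℝ →ᵇ ℂ) t = 1 := rfl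
      simp only [BoundedContinuousFunction.mul_apply, BoundedContinuousFunction.add_apply,
        BoundedContinuousFunction.smul_apply, smul_eq_mul, h1t]
      ring
    rw [e, map_add, map_add, map_add, map_smul, map_smul, map_smul, h3, S.L_D', S.L_D', S.L_one,
      smul_zero, smul_zero, add_zero, add_zero, zero_add, smul_eq_mul, mul_one,
      ← inner_conj_symm x y, Complex.mul_conj, Complex.normSq_eq_norm_sq]
  have f4 : S.L v = 0 := by
    rw [hv, map_sub, map_smul, f1]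
    have h3 := S.D_G q hq x y
    rw [h1, inner_smul_right, hyy] at h3
    change S.L (f * Y) = _ at h3
    rw [h3]
    simp
  have f5 : S.L ((X - 1) * g) = 0 := by
    have := S.L_D'_N x x
    rw [hX'] at this
    exact this
  have f6 : S.L (v * (star (X - 1) + g)) = 0 := by
    apply eq_zero_of_le (C := 4 * S.n2 v)
    intro ε hε _
    obtain ⟨a, ha, hr⟩ := S.D_approx x x ε hε
    rw [hxx, one_smul] at hr
    set r := X - 1 - a with hrdef
    change S.n2 r ≤ ε at hr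
    obtain ⟨qa, hqa, hqa1⟩ := S.X0_G a ha
    have h3 : S.L (v * qa.1) = 0 := by
      have e : v * qa.1 = (q * qa).1 * Y - (K : ℂ) • (qa.1 * X) := by
        rw [hv, sub_mul, Prod.fst_mul]
        rw [smul_mul_assoc]
        rw [mul_comm X qa.1]
        ring
      rw [e, map_sub, map_smul, S.D_G _ (G.mul_mem hq hqa), S.D_G _ hqa]
      have e2 : (q * qa).2 x = q.2 (qa.2 x) := rfl
      rw [e2, ← ContinuousLinearMap.adjoint_inner_left, h2, inner_smul_left, Complex.conj_ofReal,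
        smul_eq_mul, sub_self]
    have h4 : v * (star (X - 1) + g) = v * qa.1 + (v * star r + v * S.N (star r)) := by
      rw [hqa1, hg]
      have : star r = star (X - 1) - star a := by rw [hrdef, star_sub]
      rw [this, map_sub]
      ring
    rw [h4, map_add, h3, zero_add, map_add]
    have e1 : ‖S.L (v * star r)‖ ^ 2 ≤ S.n2 v * ε :=
      (S.cs _ _).trans (mul_le_mul_of_nonneg_left (by rw [S.n2_star]; exact hr) (S.n2_nonneg _))
    have e2 : ‖S.L (v * S.N (star r))‖ ^ 2 ≤ S.n2 v * ε :=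
      (S.cs _ _).trans (mul_le_mul_of_nonneg_left
        ((S.n2_N _).trans (by rw [S.n2_star]; exact hr)) (S.n2_nonneg _))
    have e3 : ‖S.L (v * star r) + S.L (v * S.N (star r))‖ ^ 2 ≤
        2 * (‖S.L (v * star r)‖ ^ 2 + ‖S.L (v * S.N (star r))‖ ^ 2) := by
      have h5 := pow_le_pow_left₀ (norm_nonneg _)
        (norm_add_le (S.L (v * star r)) (S.L (v * S.N (star r)))) 2
      nlinarith [sq_nonneg (‖S.L (v * star r)‖ - ‖S.L (v * S.N (star r))‖)]
    linarith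
  have f7 : S.n2 g ≤ S.n2 (X - 1) := by
    rw [hg]
    exact (S.n2_N _).trans (S.n2_star _).le
  -- the positive combination
  set A := S.n2 (X - 1) with hA
  set c := (S.L (v * star (X - 1))).re with hc
  have hA0 : 0 ≤ A := S.n2_nonneg _
  have f6' : (S.L (v * g)).re = -c := by
    rw [mul_add, map_add] at f6
    have := congrArg Complex.re f6
    rw [Complex.add_re, Complex.zero_re] at this
    linarith
  let k : ℝ →ᵇ ℂ := ((4 - 2 * K ^ 2 : ℝ) : ℂ) • (star (X - 1) * (X - 1) + (2 : ℂ) • X - 1)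
    + (4 : ℂ) • (X * X) - (4 : ℂ) • (Y * Z)
    - ((4 * K : ℝ) : ℂ) • (v * star (X - 1) + v) + ((2 * K : ℝ) : ℂ) • (v * star (X - 1))
    - ((2 * K : ℝ) : ℂ) • (v * g)
    + ((K ^ 2 / 2 : ℝ) : ℂ) • (star (X - 1) * (X - 1) + star g * g - (2 : ℂ) • ((X - 1) * g))
  have hk : ∀ t, 0 ≤ (k t).re := by
    intro t
    have hkt : (k t).re = (4 - 2 * K ^ 2) * (‖X t - 1‖ ^ 2 + 2 * (X t).re - 1)
        + 4 * (X t * X t).re - 4 * (Y t * Z t).re
        - 4 * K * ((v t * conj (X t - 1)).re + (v t).re) + 2 * K * (v t * conj (X t - 1)).re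
        - 2 * K * (v t * g t).re
        + K ^ 2 / 2 * (‖X t - 1‖ ^ 2 + ‖g t‖ ^ 2 - 2 * ((X t - 1) * g t).re) := by
      have e1 : (star (X t - 1) * (X t - 1)).re = ‖X t - 1‖ ^ 2 := by
        rw [Complex.star_def, mul_comm, Complex.mul_conj, Complex.ofReal_re,
          Complex.normSq_eq_norm_sq]
      have e2 : (star (g t) * g t).re = ‖g t‖ ^ 2 := by
        rw [Complex.star_def, mul_comm, Complex.mul_conj, Complex.ofReal_re,
          Complex.normSq_eq_norm_sq]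
      have h1t : (1 : ℝ →ᵇ ℂ) t = 1 := rfl
      simp only [k, BoundedContinuousFunction.add_apply, BoundedContinuousFunction.sub_apply,
        BoundedContinuousFunction.smul_apply, BoundedContinuousFunction.mul_apply,
        BoundedContinuousFunction.star_apply, h1t, smul_eq_mul]
      rw [show ((2 : ℂ)) = ((2 : ℝ) : ℂ) by norm_num, show ((4 : ℂ)) = ((4 : ℝ) : ℂ) by norm_num]
      simp only [Complex.add_re, Complex.sub_re, Complex.re_ofReal_mul, Complex.one_re]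
      rw [e1, e2]
      simp only [Complex.star_def]
    rw [hkt, ← Vale.Agent.P123F.abs_pointwise (X t) (Y t) (Z t) (f t) (v t) (g t) K (by
      have : v t = f t * Y t - (K : ℂ) * X t := by
        rw [hv]; simp [BoundedContinuousFunction.sub_apply]
      rw [this]; ring)]
    have h3 := S.D_cs x y t
    rw [← hX, ← hY, ← hZ, hDD] at h3
    have h4 : ‖conj (Y t) + Z t‖ ^ 2 ≤ 4 * (X t).re ^ 2 := by
      have e : ‖conj (Y t) + Z t‖ = ‖Y t + star (Z t)‖ := by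
        rw [← RCLike.norm_conj (Y t + star (Z t))]
        congr 1
        rw [map_add, Complex.star_def, Complex.conj_conj]
      rw [e]
      calc _ ≤ _ := h3
        _ = _ := by ring
    have h5 : ‖f t * Y t‖ ^ 2 ≤ ‖Y t‖ ^ 2 := by
      rw [norm_mul, mul_pow]
      have h6 : ‖f t‖ ≤ 1 := (f.norm_coe_le_norm t).trans hq1
      have h7 : ‖f t‖ ^ 2 ≤ 1 := pow_le_one₀ (norm_nonneg _) h6
      nlinarith [sq_nonneg ‖Y t‖]
    have h6 := sq_nonneg ‖Z t‖
    have h7 := sq_nonneg ‖v t + ((K / 2 : ℝ) : ℂ) * conj (conj (X t - 1) - g t)‖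
    linarith
  have hL := S.L_pos k hk
  have e1 : (S.L (star (X - 1) * (X - 1))).re = A := rfl
  have e2 : (S.L (star g * g)).re = S.n2 g := rfl
  have hLk : (S.L k).re = (4 - 2 * K ^ 2) * (A + 2 - 1) + 4 - 4 * ‖⟪y, x⟫_ℂ‖ ^ 2
      - 4 * K * (c + 0) + 2 * K * c - 2 * K * (-c) + K ^ 2 / 2 * (A + S.n2 g - 2 * 0) := by
    simp only [k, map_add, map_sub, map_smul, smul_eq_mul, f1, f2, f3, f4, f5, S.L_one]
    rw [show ((2 : ℂ)) = ((2 : ℝ) : ℂ) by norm_num, show ((4 : ℂ)) = ((4 : ℝ) : ℂ) by norm_num]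
    simp only [Complex.add_re, Complex.sub_re, Complex.re_ofReal_mul, Complex.one_re,
      Complex.zero_re, Complex.ofReal_re]
    rw [e1, e2, f6', ← hc]
    ring
  rw [hLk] at hL
  have hp : 0 ≤ ‖⟪y, x⟫_ℂ‖ ^ 2 := by positivity
  have h8 : K ^ 2 / 2 * (A + S.n2 g) ≤ K ^ 2 * A := by
    have : 0 ≤ K ^ 2 / 2 := by positivity
    nlinarith
  by_contra hcon
  push Not at hcon
  nlinarith [mul_pos (by nlinarith : (0 : ℝ) < K ^ 2 - 4) (by linarith : (0 : ℝ) < A + 2)]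

end Data

/-- the abstract theorem, finite dimension -/
theorem abs_two_fin [FiniteDimensional ℂ H] (G : Subalgebra ℂ ((ℝ →ᵇ ℂ) × (H →L[ℂ] H)))
    (S : Data G) : ∀ q ∈ G, ‖q.2‖ ≤ 2 * ‖q.1‖ := by
  intro q hq
  by_cases h0 : q.2 = 0
  · rw [h0, norm_zero]; positivity
  by_cases hr : ‖q.1‖ = 0
  · exfalso
    apply h0
    have h1 : q.1 = 0 := norm_eq_zero.1 hr
    ext x
    have h2 : ∀ y : H, ⟪y, q.2 x⟫_ℂ = 0 := by
      intro y
      rw [← S.D_G q hq x y, h1, zero_mul, map_zero]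
    have := h2 (q.2 x)
    rw [inner_self_eq_zero] at this
    simpa using this
  have hr0 : 0 < ‖q.1‖ := lt_of_le_of_ne (norm_nonneg _) (Ne.symm hr)
  set c : ℂ := ((‖q.1‖⁻¹ : ℝ) : ℂ) with hc
  have hq' : c • q ∈ G := G.smul_mem hq c
  have hcn : ‖c‖ = ‖q.1‖⁻¹ := by
    rw [hc, Complex.norm_real, norm_inv, norm_norm]
  have hn1 : ‖(c • q).1‖ ≤ 1 := by
    rw [Prod.smul_fst, norm_smul, hcn, inv_mul_cancel₀ hr]
  have hne : (c • q).2 ≠ 0 := by
    rw [Prod.smul_snd]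
    refine smul_ne_zero ?_ h0
    rw [← norm_ne_zero_iff, hcn]
    exact inv_ne_zero hr
  obtain ⟨x, y, hx, hy, h1, h2⟩ := exists_singular (c • q).2 hne
  have h3 := S.core hq' hn1 (norm_pos_iff.2 hne) hx hy h1 h2
  rw [Prod.smul_snd, norm_smul, hcn] at h3
  calc ‖q.2‖ = ‖q.1‖ * (‖q.1‖⁻¹ * ‖q.2‖) := by
        rw [← mul_assoc, mul_inv_cancel₀ hr, one_mul]
    _ ≤ ‖q.1‖ * 2 := mul_le_mul_of_nonneg_left h3 (norm_nonneg _)
    _ = 2 * ‖q.1‖ := mul_comm _ _

end Vale.Agent.P123
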