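import Vale.Agent.Lib.P123F.Krylov

/-!
P123 (Crouzeix, constant 2): compression to a finite dimensional Krylov space.
-/

namespace Vale.Agent.P123

open MeasureTheory Polynomial
open scoped Real InnerProductSpace

universe u

variable {H : Type u} [NormedAddCommGroup H] [InnerProductSpace ℂ H] [CompleteSpace H]

/-- compression to a finite-dimensional Krylov space -/
theorem exists_compression (A : H →L[ℂ] H) (Q : ℂ[X]) (x₀ : H) :
    ∃ (V : Type u) (_ : NormedAddCommGroup V) (_ : InnerProductSpace ℂ V) (_ : CompleteSpace V)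
      (_ : FiniteDimensional ℂ V) (B : V →L[ℂ] V) (ι : V →ₗᵢ[ℂ] H) (v₀ : V),
      ι v₀ = x₀ ∧ ι (aeval B Q v₀) = aeval A Q x₀ ∧
      ∀ v : V, ⟪v, B v⟫_ℂ = ⟪ι v, A (ι v)⟫_ℂ := by
  set d := Q.natDegree with hd
  let V : Submodule ℂ H := Submodule.span ℂ (Set.range fun k : Fin (d + 1) => (A ^ (k : ℕ)) x₀)
  have hfd : FiniteDimensional ℂ V := FiniteDimensional.span_of_finite ℂ (Set.finite_range _)
  have hV : ∀ k ≤ d, (A ^ k) x₀ ∈ V := fun k hk =>
    Submodule.subset_span ⟨⟨k, by omega⟩, rfl⟩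
  have hx : x₀ ∈ V := by simpa using hV 0 (Nat.zero_le _)
  refine ⟨V, inferInstance, inferInstance, FiniteDimensional.complete ℂ V, hfd, P123F.compr V A,
    V.subtypeₗᵢ, ⟨x₀, hx⟩, rfl, ?_, ?_⟩
  · show ((Polynomial.aeval (P123F.compr V A) Q ⟨x₀, hx⟩ : V) : H) = Polynomial.aeval A Q x₀
    rw [Polynomial.aeval_eq_sum_range, Polynomial.aeval_eq_sum_range]
    simp only [ContinuousLinearMap.sum_apply, ContinuousLinearMap.smul_apply,
      Submodule.coe_sum, Submodule.coe_smul]
    apply Finset.sum_congr rfl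
    intro k hk
    rw [P123F.compr_pow V A x₀ d hV hx k (by simpa [Nat.lt_succ_iff] using hk)]
  · intro v
    show ⟪v, P123F.compr V A v⟫_ℂ = ⟪(v : H), A (v : H)⟫_ℂ
    rw [P123F.compr_apply, Submodule.inner_orthogonalProjectionOnto_eq_of_mem_left]

end Vale.Agent.P123
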