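import Vale.Agent.Lib.P123.AlgB

/-!
P123 (Crouzeix): definitions for the proof of the constant `2`.
-/

namespace Vale.Agent.P123

open MeasureTheory
open scoped Real InnerProductSpace BoundedContinuousFunction

/-- the Neumann kernel, extended by `1/2` on the diagonal -/
noncomputable def kk (h : ℝ → ℝ) (s t : ℝ) : ℝ := by
  classical
  exact if cur h t = cur h s then 1 / 2 else ker h (cur h s) t

/-- the Markov package: `N` is the Neumann-Poincare operator, `p` its invariant density -/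
structure Mk (h : ℝ → ℝ) where
  N : (ℝ →ᵇ ℂ) →L[ℂ] (ℝ →ᵇ ℂ)
  p : ℝ → ℝ
  c : ℝ
  c_pos : 0 < c
  p_cont : Continuous p
  p_per : ∀ t, p (t + 2 * π) = p t
  p_ge : ∀ t, c ≤ p t
  N_per : ∀ (k : ℝ →ᵇ ℂ) (s : ℝ), N k (s + 2 * π) = N k s
  N_np : ∀ k : ℝ →ᵇ ℂ, (∀ t, k (t + 2 * π) = k t) → ∀ s, N k s = np h k s
  N_one : N 1 = 1
  N_pos : ∀ k : ℝ →ᵇ ℂ, (∀ t, 0 ≤ (k t).re) → ∀ s, 0 ≤ (N k s).re
  L : (ℝ →ᵇ ℂ) →L[ℂ] ℂ
  L_eq : ∀ k : ℝ →ᵇ ℂ, L k = ∫ t in (0 : ℝ)..(2 * π), k t * ((p t : ℝ) : ℂ)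
  L_one : L 1 = 1
  L_N : ∀ k : ℝ →ᵇ ℂ, L (N k) = L k
  L_tendsto : ∀ k : ℝ →ᵇ ℂ, Filter.Tendsto (fun n : ℕ => (N ^ n) k) Filter.atTop
    (nhds (L k • (1 : ℝ →ᵇ ℂ)))

variable {H : Type*} [NormedAddCommGroup H] [InnerProductSpace ℂ H] [CompleteSpace H]

/-- `z` is strictly inside the curve -/
def Ins (h : ℝ → ℝ) (z : ℂ) : Prop := ∀ θ, sp θ z < h θ

/-- generator of the exterior functions -/
noncomputable def eg (h : ℝ → ℝ) (z : ℂ) : ℝ →ᵇ ℂ := bcf (fun t => (cur h t - z)⁻¹)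

/-- closed span of the functions `(γ - z)⁻¹` with `z` inside the curve and outside the spectrum
of `A` : exterior analytic functions vanishing at infinity -/
noncomputable def Ext0 (h : ℝ → ℝ) (A : H →L[ℂ] H) : Submodule ℂ (ℝ →ᵇ ℂ) :=
  (Submodule.span ℂ {u | ∃ z : ℂ, Ins h z ∧ IsUnit (algebraMap ℂ (H →L[ℂ] H) z - A) ∧
    u = eg h z}).topologicalClosure

end Vale.Agent.P123
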