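import Vale.Agent.Lib.P123T.DnDef

/-!
P123 (Crouzeix, constant 2): positivity, Cauchy-Schwarz and commutation for the densities `Dn`.
-/

namespace Vale.Agent.P123

open MeasureTheory Filter Topology
open scoped Real InnerProductSpace BoundedContinuousFunction

variable {H : Type*} [NormedAddCommGroup H] [InnerProductSpace ℂ H] [CompleteSpace H]
variable {h : ℝ → ℝ} {A : H →L[ℂ] H} {δ : ℝ}

theorem Dn_eq (hh : Adm h) (hA : AdmA h A δ) (M : Mk h) (x y : H) (t : ℝ) :
    Dn h A M x y t = ((rho h t / (2 * π * M.p t) : ℝ) : ℂ) * (ei t * ⟪y, res h A 1 t x⟫_ℂ) := by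
  rw [Dn_apply hh hA]
  have h1 : (M.p t : ℂ) ≠ 0 := by exact_mod_cast (M.p_pos t).ne'
  have h2 : (π : ℂ) ≠ 0 := by exact_mod_cast Real.pi_ne_zero
  have h3 := Complex.I_ne_zero
  unfold dcur
  push_cast
  field_simp

theorem Dn_coef_nonneg (hh : Adm h) (M : Mk h) (t : ℝ) : 0 ≤ rho h t / (2 * π * M.p t) :=
  div_nonneg (hh.rho_pos t).le
    (mul_nonneg (mul_nonneg zero_le_two Real.pi_pos.le) (M.p_pos t).le)

theorem Dn_re_nonneg (hh : Adm h) (hA : AdmA h A δ) (M : Mk h) (x : H) (t : ℝ) :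
    0 ≤ (Dn h A M x x t).re := by
  rw [Dn_eq hh hA, Complex.re_ofReal_mul]
  exact mul_nonneg (Dn_coef_nonneg hh M t) (re_ei_res_nonneg hA t x)

theorem Dn_add (hh : Adm h) (hA : AdmA h A δ) (M : Mk h) (x y z : H) :
    Dn h A M x (y + z) = Dn h A M x y + Dn h A M x z := by
  ext t
  rw [BoundedContinuousFunction.add_apply, Dn_eq hh hA, Dn_eq hh hA, Dn_eq hh hA, inner_add_left]
  ring

theorem Dn_smul (hh : Adm h) (hA : AdmA h A δ) (M : Mk h) (c : ℂ) (x y : H) :
    Dn h A M x (c • y) = star c • Dn h A M x y := by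
  ext t
  rw [BoundedContinuousFunction.smul_apply, Dn_eq hh hA, Dn_eq hh hA, inner_smul_left,
    Complex.star_def, smul_eq_mul]
  ring

theorem Dn_re_sub (hh : Adm h) (hA : AdmA h A δ) (M : Mk h) (x y : H) (t : ℝ) (l : ℂ) :
    (Dn h A M (x - l • y) (x - l • y) t).re = (Dn h A M x x t).re
      - ((starRingEnd ℂ) l * (Dn h A M x y t + star (Dn h A M y x t))).re
      + ‖l‖ ^ 2 * (Dn h A M y y t).re := by
  have e1 : Dn h A M (x - l • y) (x - l • y) t = Dn h A M x x t - l * Dn h A M y x t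
      - (starRingEnd ℂ) l * Dn h A M x y t
      + ((‖l‖ ^ 2 : ℝ) : ℂ) * Dn h A M y y t := by
    have e2 : ((‖l‖ ^ 2 : ℝ) : ℂ) = (starRingEnd ℂ) l * l := by
      rw [mul_comm, Complex.mul_conj, Complex.normSq_eq_norm_sq]
    rw [e2, Dn_eq hh hA, Dn_eq hh hA, Dn_eq hh hA, Dn_eq hh hA, Dn_eq hh hA, map_sub, map_smul,
      inner_sub_left, inner_sub_right, inner_sub_right, inner_smul_left, inner_smul_left,
      inner_smul_right, inner_smul_right]
    ring
  have e3 : ((starRingEnd ℂ) l * star (Dn h A M y x t)).re = (l * Dn h A M y x t).re := by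
    rw [Complex.star_def, ← map_mul, Complex.conj_re]
  rw [e1, Complex.add_re, Complex.sub_re, Complex.sub_re, Complex.re_ofReal_mul, mul_add,
    Complex.add_re, e3]
  ring

theorem Dn_cs (hh : Adm h) (hA : AdmA h A δ) (M : Mk h) (x y : H) (t : ℝ) :
    ‖Dn h A M x y t + star (Dn h A M y x t)‖ ^ 2 ≤
      4 * (Dn h A M x x t).re * (Dn h A M y y t).re := by
  set w := Dn h A M x y t + star (Dn h A M y x t) with hw
  set a := (Dn h A M x x t).re with ha
  set b := (Dn h A M y y t).re with hb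
  have ha0 : 0 ≤ a := Dn_re_nonneg hh hA M x t
  have hb0 : 0 ≤ b := Dn_re_nonneg hh hA M y t
  have key : ∀ s : ℝ, 0 ≤ (‖w‖ ^ 2 * b) * (s * s) + (-(‖w‖ ^ 2)) * s + a := by
    intro s
    have h1 := Dn_re_nonneg hh hA M (x - (w * (s : ℂ)) • y) t
    rw [Dn_re_sub hh hA] at h1
    have e1 : ((starRingEnd ℂ) (w * (s : ℂ)) * w).re = ‖w‖ ^ 2 * s := by
      rw [map_mul, Complex.conj_ofReal,
        show (starRingEnd ℂ) w * (s : ℂ) * w = (w * (starRingEnd ℂ) w) * (s : ℂ) by ring,
        Complex.mul_conj, ← Complex.ofReal_mul, Complex.ofReal_re, Complex.normSq_eq_norm_sq]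
    have e2 : ‖w * (s : ℂ)‖ ^ 2 = ‖w‖ ^ 2 * (s * s) := by
      rw [norm_mul, Complex.norm_real, mul_pow, Real.norm_eq_abs, sq_abs]
      ring
    rw [← hw, ← ha, ← hb, e1, e2] at h1
    linarith
  have hd := discrim_le_zero key
  unfold discrim at hd
  by_cases hW : ‖w‖ ^ 2 = 0
  · rw [hW]; positivity
  · have hWp : 0 < ‖w‖ ^ 2 := lt_of_le_of_ne (by positivity) (Ne.symm hW)
    by_contra hcon
    push Not at hcon
    nlinarith [mul_pos hWp (sub_pos.2 hcon)]

/-- elements of `GG` commute with the resolvent -/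
theorem GG_comm_res (hA : AdmA h A δ) {q : (ℝ →ᵇ ℂ) × (H →L[ℂ] H)}
    (hq : q ∈ GG h A) (t : ℝ) : q.2 * res h A 1 t = res h A 1 t * q.2 := by
  have hcomm : ∀ r s : ℝ, 0 ≤ r → r < 1 → res h A r s * res h A 1 t = res h A 1 t * res h A r s := by
    intro r s h0 h1
    have hc1 : Commute A (res h A 1 t) := A_mul_res hA zero_le_one le_rfl t
    have hc2 : Commute (pen h A r s) (res h A 1 t) := by
      unfold pen
      exact (Algebra.commute_algebraMap_left _ _).sub_left (hc1.smul_left _)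
    calc res h A r s * res h A 1 t
        = res h A r s * (res h A 1 t * (pen h A r s * res h A r s)) := by
          rw [pen_mul_res hA h0 h1.le, mul_one]
      _ = res h A r s * ((res h A 1 t * pen h A r s) * res h A r s) := by rw [mul_assoc]
      _ = res h A r s * ((pen h A r s * res h A 1 t) * res h A r s) := by rw [hc2.eq]
      _ = (res h A r s * pen h A r s) * (res h A 1 t * res h A r s) := by
          simp only [mul_assoc]
      _ = res h A 1 t * res h A r s := by rw [res_mul_pen hA h0 h1.le, one_mul]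
  let S : Submodule ℂ ((ℝ →ᵇ ℂ) × (H →L[ℂ] H)) :=
    { carrier := {p | p.2 * res h A 1 t = res h A 1 t * p.2}
      add_mem' := by
        intro a b ha hb
        change (a.2 + b.2) * res h A 1 t = res h A 1 t * (a.2 + b.2)
        change a.2 * res h A 1 t = res h A 1 t * a.2 at ha
        change b.2 * res h A 1 t = res h A 1 t * b.2 at hb
        rw [add_mul, mul_add, ha, hb]
      zero_mem' := by
        change (0 : H →L[ℂ] H) * res h A 1 t = res h A 1 t * 0
        rw [zero_mul, mul_zero]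
      smul_mem' := by
        intro c a ha
        change (c • a.2) * res h A 1 t = res h A 1 t * (c • a.2)
        change a.2 * res h A 1 t = res h A 1 t * a.2 at ha
        rw [smul_mul_assoc, mul_smul_comm, ha] }
  have hS : IsClosed (S : Set ((ℝ →ᵇ ℂ) × (H →L[ℂ] H))) :=
    isClosed_eq (continuous_snd.mul continuous_const) (continuous_const.mul continuous_snd)
  have hle : GG h A ≤ S := GG_le hS (fun r s h0 h1 => hcomm r s h0 h1)
  exact hle hq

theorem Dn_comm (hh : Adm h) (hA : AdmA h A δ) (M : Mk h) {q : (ℝ →ᵇ ℂ) × (H →L[ℂ] H)}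
    (hq : q ∈ GG h A) (x y : H) :
    Dn h A M (q.2 x) y = Dn h A M x (ContinuousLinearMap.adjoint q.2 y) := by
  ext t
  rw [Dn_eq hh hA, Dn_eq hh hA, ContinuousLinearMap.adjoint_inner_left]
  have e : q.2 (res h A 1 t x) = res h A 1 t (q.2 x) :=
    congrArg (fun T : H →L[ℂ] H => T x) (GG_comm_res hA hq t)
  rw [e]

theorem L_mul_Dn (hh : Adm h) (hA : AdmA h A δ) (M : Mk h) (x y : H) (k : ℝ →ᵇ ℂ) :
    M.L (k * Dn h A M x y) = ⟪y, TC h A k x⟫_ℂ := by
  rw [M.L_eq, inner_TC hh hA k k.continuous, ← intervalIntegral.integral_const_mul]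
  apply intervalIntegral.integral_congr
  intro t _
  have h1 : (M.p t : ℂ) ≠ 0 := by exact_mod_cast (M.p_pos t).ne'
  have h2 : (π : ℂ) ≠ 0 := by exact_mod_cast Real.pi_ne_zero
  change (k t * Dn h A M x y t) * (M.p t : ℂ) = (2 * π : ℂ)⁻¹ * (((rho h t : ℝ) : ℂ) *
        (k t * (ei t * ⟪y, res h A 1 t x⟫_ℂ)))
  rw [Dn_eq hh hA]
  push_cast
  field_simp

end Vale.Agent.P123
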