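import Vale.Agent.Lib.P123T.DnDef
import Vale.Agent.Lib.P123T.DensB

/-!
P123 (Crouzeix, constant 2): the densities (module E2), see `DnDef.lean` and `DensB.lean`.
-/
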