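import Vale.Agent.Lib.P123T.Defs

/-!
P123 (Crouzeix, constant 2): the densities `Dn`, definition and basic facts.
-/

namespace Vale.Agent.P123

open MeasureTheory Filter Topology
open scoped Real InnerProductSpace BoundedContinuousFunction

variable {H : Type*} [NormedAddCommGroup H] [InnerProductSpace ℂ H] [CompleteSpace H]
variable {h : ℝ → ℝ} {A : H →L[ℂ] H} {δ : ℝ}

/-- `<y, R(t) x> γ'(t) / (2 π i p(t))` -/
noncomputable def Dn (h : ℝ → ℝ) (A : H →L[ℂ] H) (M : Mk h) (x y : H) : ℝ →ᵇ ℂ :=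
  bcf (fun t => (⟪y, res h A 1 t x⟫_ℂ * dcur h t) / (2 * π * Complex.I * (M.p t : ℂ)))

theorem Mk.p_pos (M : Mk h) (t : ℝ) : 0 < M.p t := M.c_pos.trans_le (M.p_ge t)

theorem Mk.den_ne (M : Mk h) (t : ℝ) : (2 * π * Complex.I * (M.p t : ℂ)) ≠ 0 := by
  have h1 : (M.p t : ℂ) ≠ 0 := by exact_mod_cast (M.p_pos t).ne'
  have h2 : (π : ℂ) ≠ 0 := by exact_mod_cast Real.pi_ne_zero
  simp [h1, h2, Complex.I_ne_zero]

theorem Dn_continuous_aux (hh : Adm h) (hA : AdmA h A δ) (M : Mk h) (x y : H) :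
    Continuous (fun t => (⟪y, res h A 1 t x⟫_ℂ * dcur h t) /
      (2 * π * Complex.I * (M.p t : ℂ))) := by
  refine ((continuous_inner_res hh hA x y).mul (continuous_dcur hh)).div ?_ M.den_ne
  exact continuous_const.mul (Complex.continuous_ofReal.comp M.p_cont)

theorem Dn_bound_aux (hh : Adm h) (hA : AdmA h A δ) (M : Mk h) :
    ∃ C : ℝ, 0 ≤ C ∧ ∀ (x y : H) (t : ℝ), ‖(⟪y, res h A 1 t x⟫_ℂ * dcur h t) /
      (2 * π * Complex.I * (M.p t : ℂ))‖ ≤ C * ‖x‖ * ‖y‖ := by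
  obtain ⟨B, hB0, hB⟩ := exists_norm_dcur_le hh
  have hδ := hA.δ_pos
  have hpi := Real.pi_pos
  have hc := M.c_pos
  refine ⟨δ⁻¹ * B / (2 * π * M.c), by positivity, fun x y t => ?_⟩
  have h1 : ‖⟪y, res h A 1 t x⟫_ℂ‖ ≤ ‖y‖ * (δ⁻¹ * ‖x‖) := by
    refine (norm_inner_le_norm _ _).trans ?_
    refine mul_le_mul_of_nonneg_left ?_ (norm_nonneg _)
    exact ((res h A 1 t).le_opNorm x).trans
      (mul_le_mul_of_nonneg_right (norm_res_le hA zero_le_one le_rfl t) (norm_nonneg _))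
  have h2 : ‖(2 * π * Complex.I * (M.p t : ℂ))‖ = 2 * π * M.p t := by
    rw [norm_mul, norm_mul, norm_mul, Complex.norm_I, Complex.norm_real, Complex.norm_real,
      Real.norm_of_nonneg hpi.le, Real.norm_of_nonneg (M.p_pos t).le]
    simp
  rw [norm_div, norm_mul, h2]
  have h3 : 2 * π * M.c ≤ 2 * π * M.p t := by
    have := M.p_ge t
    nlinarith
  calc ‖⟪y, res h A 1 t x⟫_ℂ‖ * ‖dcur h t‖ / (2 * π * M.p t)
      ≤ (‖y‖ * (δ⁻¹ * ‖x‖) * B) / (2 * π * M.c) := by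
        apply div_le_div₀ (by positivity) _ (by positivity) h3
        exact mul_le_mul h1 (hB t) (norm_nonneg _) (by positivity)
    _ = δ⁻¹ * B / (2 * π * M.c) * ‖x‖ * ‖y‖ := by ring

theorem Dn_apply (hh : Adm h) (hA : AdmA h A δ) (M : Mk h) (x y : H) (t : ℝ) :
    Dn h A M x y t = (⟪y, res h A 1 t x⟫_ℂ * dcur h t) / (2 * π * Complex.I * (M.p t : ℂ)) := by
  obtain ⟨C, _, hC⟩ := Dn_bound_aux hh hA M
  exact bcf_apply (Dn_continuous_aux hh hA M x y) _ (hC x y) t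

theorem Dn_per (hh : Adm h) (hA : AdmA h A δ) (M : Mk h) (x y : H) (t : ℝ) :
    Dn h A M x y (t + 2 * π) = Dn h A M x y t := by
  rw [Dn_apply hh hA, Dn_apply hh hA, res_per hh, dcur_per hh, M.p_per]

theorem Dn_bound (hh : Adm h) (hA : AdmA h A δ) (M : Mk h) :
    ∃ C : ℝ, 0 ≤ C ∧ ∀ x y : H, ‖Dn h A M x y‖ ≤ C * ‖x‖ * ‖y‖ := by
  obtain ⟨C, hC0, hC⟩ := Dn_bound_aux hh hA M
  refine ⟨C, hC0, fun x y => ?_⟩
  rw [BoundedContinuousFunction.norm_le (by positivity)]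
  intro t
  rw [Dn_apply hh hA]
  exact hC x y t

end Vale.Agent.P123
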