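import Vale.Agent.Lib.P123T.KK
import Vale.Agent.Lib.P123F.AbsDens

/-!
P123 (Crouzeix): the Markov package of the Neumann-Poincare operator.
-/

namespace Vale.Agent.P123

open MeasureTheory Filter Topology
open scoped Real InnerProductSpace BoundedContinuousFunction

variable {h : ℝ → ℝ}

/-- normalised kernel -/
noncomputable def kap (h : ℝ → ℝ) (s t : ℝ) : ℝ := kk h s t / π

theorem doeb_kap (hh : Adm h) : ∃ c M : ℝ, Doeb (kap h) c M := by
  obtain ⟨c, M, hc, hcM⟩ := exists_kk_bounds hh
  have hpi := Real.pi_pos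
  refine ⟨c / π, M / π, ?_⟩
  refine
    { cont := ?_
      per2 := ?_
      c_pos := by positivity
      lower := ?_
      upper := ?_
      mass := ?_ }
  · exact (continuous_kk hh).div_const π
  · intro s t
    unfold kap
    rw [kk_per_right hh]
  · intro s t
    exact div_le_div_of_nonneg_right (hcM s t).1 hpi.le
  · intro s t
    exact div_le_div_of_nonneg_right (hcM s t).2 hpi.le
  · intro s
    unfold kap
    rw [intervalIntegral.integral_div, integral_kk hh, div_self hpi.ne']

theorem kap_cont (hh : Adm h) : Continuous (Function.uncurry (kap h)) :=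
  (continuous_kk hh).div_const π

theorem kap_cont2 (hh : Adm h) (s : ℝ) : Continuous (fun t => kap h s t) :=
  (kap_cont hh).comp (by fun_prop : Continuous fun t : ℝ => (s, t))

theorem kap_nonneg (hh : Adm h) (s t : ℝ) : 0 ≤ kap h s t :=
  div_nonneg (kk_pos hh s t).le Real.pi_pos.le

theorem kap_mass (hh : Adm h) (s : ℝ) : ∫ t in (0 : ℝ)..(2 * π), kap h s t = 1 := by
  unfold kap
  rw [intervalIntegral.integral_div, integral_kk hh, div_self Real.pi_ne_zero]

theorem kap_int (hh : Adm h) (s : ℝ) (k : ℝ →ᵇ ℂ) :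
    IntervalIntegrable (fun t => ((kap h s t : ℝ) : ℂ) * k t) volume 0 (2 * π) :=
  ((Complex.continuous_ofReal.comp (kap_cont2 hh s)).mul k.continuous).intervalIntegrable _ _

theorem PK_norm_le (hh : Adm h) (k : ℝ →ᵇ ℂ) (s : ℝ) : ‖PK (kap h) k s‖ ≤ ‖k‖ := by
  have h1 : ‖PK (kap h) k s‖ ≤ ∫ t in (0 : ℝ)..(2 * π), kap h s t * ‖k‖ := by
    refine intervalIntegral.norm_integral_le_of_norm_le (by positivity)
      (Filter.Eventually.of_forall fun t _ => ?_)
      (((kap_cont2 hh s).mul continuous_const).intervalIntegrable _ _)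
    rw [norm_mul, Complex.norm_real, Real.norm_eq_abs, abs_of_nonneg (kap_nonneg hh s t)]
    exact mul_le_mul_of_nonneg_left (k.norm_coe_le_norm t) (kap_nonneg hh s t)
  rwa [intervalIntegral.integral_mul_const, kap_mass hh, one_mul] at h1

/-- the Neumann-Poincare operator on bounded continuous functions -/
noncomputable def NN (hh : Adm h) : (ℝ →ᵇ ℂ) →L[ℂ] (ℝ →ᵇ ℂ) :=
  LinearMap.mkContinuous
    { toFun := fun k => BoundedContinuousFunction.ofNormedAddCommGroup (PK (kap h) k)
        (PK_cont (kap_cont hh) k.continuous) ‖k‖ (PK_norm_le hh k)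
      map_add' := by
        intro k l
        ext s
        show PK (kap h) (k + l : ℝ →ᵇ ℂ) s = PK (kap h) k s + PK (kap h) l s
        unfold PK
        rw [← intervalIntegral.integral_add (kap_int hh s k) (kap_int hh s l)]
        refine intervalIntegral.integral_congr fun t _ => ?_
        show ((kap h s t : ℝ) : ℂ) * (k t + l t) = _
        ring
      map_smul' := by
        intro c k
        ext s
        show PK (kap h) (c • k : ℝ →ᵇ ℂ) s = c * PK (kap h) k s
        unfold PK
        rw [← intervalIntegral.integral_const_mul]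
        refine intervalIntegral.integral_congr fun t _ => ?_
        show ((kap h s t : ℝ) : ℂ) * (c * k t) = _
        ring } 1 (fun k => by
      rw [one_mul]
      exact BoundedContinuousFunction.norm_ofNormedAddCommGroup_le _ (norm_nonneg k)
        (PK_norm_le hh k))

theorem NN_apply (hh : Adm h) (k : ℝ →ᵇ ℂ) (s : ℝ) : NN hh k s = PK (kap h) k s := rfl

theorem NN_pow_apply (hh : Adm h) (n : ℕ) (k : ℝ →ᵇ ℂ) (s : ℝ) :
    ((NN hh) ^ n) k s = (PK (kap h))^[n] k s := by
  induction n generalizing s with
  | zero => rfl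
  | succ n ih =>
    rw [pow_succ', ContinuousLinearMap.mul_apply, NN_apply, Function.iterate_succ_apply']
    congr 1
    funext s
    exact ih s

/-- integration against a density of mass one -/
noncomputable def LL (p : ℝ → ℝ) (hp : Continuous p) (hp0 : ∀ t, 0 ≤ p t)
    (hp1 : ∫ t in (0 : ℝ)..(2 * π), p t = 1) : (ℝ →ᵇ ℂ) →L[ℂ] ℂ :=
  LinearMap.mkContinuous
    { toFun := fun k => ∫ t in (0 : ℝ)..(2 * π), k t * ((p t : ℝ) : ℂ)
      map_add' := by
        intro k l
        rw [← intervalIntegral.integral_add]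
        · refine intervalIntegral.integral_congr fun t _ => ?_
          show (k t + l t) * _ = _
          ring
        · exact (k.continuous.mul (Complex.continuous_ofReal.comp hp)).intervalIntegrable _ _
        · exact (l.continuous.mul (Complex.continuous_ofReal.comp hp)).intervalIntegrable _ _
      map_smul' := by
        intro c k
        show _ = c * _
        rw [← intervalIntegral.integral_const_mul]
        refine intervalIntegral.integral_congr fun t _ => ?_
        show (c * k t) * _ = _
        ring } 1 (fun k => by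
      have h1 : ‖∫ t in (0 : ℝ)..(2 * π), k t * ((p t : ℝ) : ℂ)‖ ≤
          ∫ t in (0 : ℝ)..(2 * π), p t * ‖k‖ := by
        refine intervalIntegral.norm_integral_le_of_norm_le (by positivity)
          (Filter.Eventually.of_forall fun t _ => ?_)
          ((hp.mul continuous_const).intervalIntegrable _ _)
        rw [norm_mul, Complex.norm_real, Real.norm_eq_abs, abs_of_nonneg (hp0 t), mul_comm]
        exact mul_le_mul_of_nonneg_left (k.norm_coe_le_norm t) (hp0 t)
      rw [intervalIntegral.integral_mul_const, hp1] at h1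
      exact h1)

theorem exists_markov (hh : Adm h) : Nonempty (Mk h) := by
  obtain ⟨c, M, D⟩ := doeb_kap hh
  obtain ⟨m, m1, m2, m3, m4, m5, m6⟩ := D.main
  have hm0 : ∀ t, 0 ≤ m t := fun t => D.c_pos.le.trans (m3 t)
  refine ⟨
    { N := NN hh
      p := m
      c := c
      c_pos := D.c_pos
      p_cont := m1
      p_per := m2
      p_ge := m3
      N_per := ?_
      N_np := ?_
      N_one := ?_
      N_pos := ?_
      L := LL m m1 hm0 m4
      L_eq := fun k => rfl
      L_one := ?_
      L_N := ?_
      L_tendsto := ?_ }⟩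
  · intro k s
    rw [NN_apply, NN_apply]
    unfold PK
    refine intervalIntegral.integral_congr fun t _ => ?_
    show ((kap h (s + 2 * π) t : ℝ) : ℂ) * k t = ((kap h s t : ℝ) : ℂ) * k t
    unfold kap
    rw [kk_per_left hh]
  · intro k hk s
    rw [NN_apply, np_eq_kk hh k hk]
    unfold PK
    rw [← intervalIntegral.integral_const_mul]
    refine intervalIntegral.integral_congr fun t _ => ?_
    show ((kap h s t : ℝ) : ℂ) * k t = (1 / π : ℂ) * (((kk h s t : ℝ) : ℂ) * k t)
    unfold kap
    push_cast
    ring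
  · ext s
    rw [NN_apply]
    show PK (kap h) (1 : ℝ →ᵇ ℂ) s = 1
    unfold PK
    have : ∫ t in (0 : ℝ)..(2 * π), ((kap h s t : ℝ) : ℂ) * ((1 : ℝ →ᵇ ℂ) t) =
        ∫ t in (0 : ℝ)..(2 * π), ((kap h s t : ℝ) : ℂ) := by
      refine intervalIntegral.integral_congr fun t _ => ?_
      show _ * (1 : ℂ) = _
      rw [mul_one]
    rw [this, intervalIntegral.integral_ofReal, kap_mass hh, Complex.ofReal_one]
  · intro k hk s
    rw [NN_apply]
    unfold PK
    have h1 := Complex.reCLM.intervalIntegral_comp_comm (kap_int hh s k)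
    have h2 : (∫ t in (0 : ℝ)..(2 * π), ((kap h s t : ℝ) : ℂ) * k t).re =
        ∫ t in (0 : ℝ)..(2 * π), (((kap h s t : ℝ) : ℂ) * k t).re := h1.symm
    rw [h2]
    refine intervalIntegral.integral_nonneg (by positivity) fun t _ => ?_
    rw [Complex.re_ofReal_mul]
    exact mul_nonneg (kap_nonneg hh s t) (hk t)
  · show ∫ t in (0 : ℝ)..(2 * π), (1 : ℝ →ᵇ ℂ) t * ((m t : ℝ) : ℂ) = 1
    have : ∫ t in (0 : ℝ)..(2 * π), (1 : ℝ →ᵇ ℂ) t * ((m t : ℝ) : ℂ) =
        ∫ t in (0 : ℝ)..(2 * π), ((m t : ℝ) : ℂ) := by
      refine intervalIntegral.integral_congr fun t _ => ?_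
      show (1 : ℂ) * _ = _
      rw [one_mul]
    rw [this, intervalIntegral.integral_ofReal, m4, Complex.ofReal_one]
  · intro k
    exact m5 k k.continuous
  · intro k
    rw [Metric.tendsto_atTop]
    intro ε hε
    obtain ⟨N, hN⟩ := m6 k k.continuous (ε / 2) (by positivity)
    refine ⟨N, fun n hn => ?_⟩
    rw [dist_eq_norm]
    refine lt_of_le_of_lt ?_ (half_lt_self hε)
    refine (BoundedContinuousFunction.norm_le (by positivity)).2 fun s => ?_
    have h1 := hN n hn s
    show ‖((NN hh) ^ n) k s - (∫ t in (0 : ℝ)..(2 * π), k t * ((m t : ℝ) : ℂ)) * 1‖ ≤ ε / 2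
    rw [mul_one, NN_pow_apply hh]
    exact h1

end Vale.Agent.P123
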