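import Vale.Agent.Lib.P123T.Defs
import Vale.Agent.Lib.P123.Conv

namespace Vale.Agent.P123

open MeasureTheory
open scoped Real InnerProductSpace BoundedContinuousFunction

variable {h : ℝ → ℝ} {H : Type*} [NormedAddCommGroup H] [InnerProductSpace ℂ H] [CompleteSpace H]
  {A : H →L[ℂ] H} {δ : ℝ}

theorem Ins.ne (hh : Adm h) {z : ℂ} (hz : Ins h z) (t : ℝ) : cur h t - z ≠ 0 :=
  cur_sub_ne hh z hz t

theorem continuous_inv_sub (hh : Adm h) {z : ℂ} (hz : Ins h z) :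
    Continuous (fun t => (cur h t - z)⁻¹) :=
  ((continuous_cur hh).sub continuous_const).inv₀ (fun t => hz.ne hh t)

/-- a point inside has positive distance to the curve -/
theorem Ins.exists_dist (hh : Adm h) {z : ℂ} (hz : Ins h z) :
    ∃ c : ℝ, 0 < c ∧ ∀ t, c ≤ ‖cur h t - z‖ := by
  obtain ⟨M, hM0, hM⟩ := exists_bound_of_periodic (continuous_inv_sub hh hz)
    (fun t => by rw [cur_per hh])
  refine ⟨M⁻¹, by positivity, fun t => ?_⟩
  have h1 := hM t
  have h2 : 0 < ‖cur h t - z‖ := norm_pos_iff.2 (hz.ne hh t)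
  rw [norm_inv] at h1
  exact inv_le_of_inv_le₀ h2 h1

theorem eg_apply (hh : Adm h) {z : ℂ} (hz : Ins h z) (t : ℝ) : eg h z t = (cur h t - z)⁻¹ := by
  obtain ⟨c, hc, hcz⟩ := hz.exists_dist hh
  exact bcf_apply (continuous_inv_sub hh hz) c⁻¹ (fun x => by
    rw [norm_inv]
    exact inv_anti₀ hc (hcz x)) t

theorem eg_mem {z : ℂ} (hz : Ins h z) (hzA : IsUnit (algebraMap ℂ (H →L[ℂ] H) z - A)) :
    eg h z ∈ Ext0 h A :=
  Submodule.le_topologicalClosure _ (Submodule.subset_span ⟨z, hz, hzA, rfl⟩)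

theorem isClosed_Ext0 : IsClosed (Ext0 h A : Set (ℝ →ᵇ ℂ)) :=
  Submodule.isClosed_topologicalClosure _

/-- induction principle -/
theorem Ext0_le {S : Submodule ℂ (ℝ →ᵇ ℂ)} (hS : IsClosed (S : Set (ℝ →ᵇ ℂ)))
    (hg : ∀ z : ℂ, Ins h z → IsUnit (algebraMap ℂ (H →L[ℂ] H) z - A) → eg h z ∈ S) :
    Ext0 h A ≤ S := by
  refine Submodule.topologicalClosure_minimal _ ?_ hS
  rw [Submodule.span_le]
  rintro u ⟨z, hz, hzA, rfl⟩
  exact hg z hz hzA

theorem ext_per (hh : Adm h) {u : ℝ →ᵇ ℂ} (hu : u ∈ Ext0 h A) (t : ℝ) :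
    u (t + 2 * π) = u t := by
  let S : Submodule ℂ (ℝ →ᵇ ℂ) :=
    { carrier := {u | u (t + 2 * π) = u t}
      zero_mem' := rfl
      add_mem' := by
        intro a b ha hb
        show a (t + 2 * π) + b (t + 2 * π) = a t + b t
        rw [ha, hb]
      smul_mem' := by
        intro c a ha
        show c * a (t + 2 * π) = c * a t
        rw [ha] }
  have hS : IsClosed (S : Set (ℝ →ᵇ ℂ)) :=
    isClosed_eq (BoundedContinuousFunction.evalCLM ℂ (t + 2 * π)).continuous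
      (BoundedContinuousFunction.evalCLM ℂ t).continuous
  have hle : Ext0 h A ≤ S := Ext0_le hS (fun z hz _ => by
    show eg h z (t + 2 * π) = eg h z t
    rw [eg_apply hh hz, eg_apply hh hz, cur_per hh])
  exact hle hu

/-- a uniform limit of elements of a closed submodule is in it -/
theorem exists_mem_of_approx (S : Submodule ℂ (ℝ →ᵇ ℂ)) (hS : IsClosed (S : Set (ℝ →ᵇ ℂ)))
    (F : ℝ → ℂ) (hF : ∀ ε : ℝ, 0 < ε → ∃ v ∈ S, ∀ s, ‖v s - F s‖ ≤ ε) :
    ∃ v ∈ S, ∀ s, v s = F s := by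
  have hpos : ∀ n : ℕ, (0 : ℝ) < 1 / ((n : ℝ) + 1) := fun n => by positivity
  choose x hx hxF using fun n : ℕ => hF (1 / ((n : ℝ) + 1)) (hpos n)
  have hC : CauchySeq x := by
    rw [Metric.cauchySeq_iff']
    intro ε hε
    obtain ⟨n₀, hn₀⟩ := exists_nat_one_div_lt (half_pos hε)
    refine ⟨n₀, fun n hn => ?_⟩
    have h2 : 1 / ((n : ℝ) + 1) ≤ 1 / ((n₀ : ℝ) + 1) := Nat.one_div_le_one_div hn
    have hle : dist (x n) (x n₀) ≤ 1 / ((n : ℝ) + 1) + 1 / ((n₀ : ℝ) + 1) := by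
      rw [BoundedContinuousFunction.dist_le (by positivity)]
      intro s
      have e1 := hxF n s
      have e2 := hxF n₀ s
      rw [← dist_eq_norm] at e1 e2
      exact (dist_triangle_right _ _ (F s)).trans (add_le_add e1 e2)
    linarith
  obtain ⟨q, hq⟩ := cauchySeq_tendsto_of_complete hC
  refine ⟨q, hS.mem_of_tendsto hq (Filter.Eventually.of_forall hx), fun s => ?_⟩
  have h1 : Filter.Tendsto (fun n => x n s) Filter.atTop (nhds (q s)) :=
    ((BoundedContinuousFunction.evalCLM ℂ s).continuous.tendsto q).comp hq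
  have h2 : Filter.Tendsto (fun n => x n s) Filter.atTop (nhds (F s)) := by
    rw [Metric.tendsto_atTop]
    intro ε hε
    obtain ⟨n₀, hn₀⟩ := exists_nat_one_div_lt hε
    refine ⟨n₀, fun n hn => ?_⟩
    have h3 : 1 / ((n : ℝ) + 1) ≤ 1 / ((n₀ : ℝ) + 1) := Nat.one_div_le_one_div hn
    rw [dist_eq_norm]
    have := hxF n s
    linarith
  exact tendsto_nhds_unique h1 h2

end Vale.Agent.P123
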