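import Vale.Agent.Lib.P123T.Eg

/-!
P123 (Crouzeix), module C3b: the Cauchy transform of the conjugate of an exterior function.
-/

namespace Vale.Agent.P123

open MeasureTheory
open scoped Real InnerProductSpace BoundedContinuousFunction

variable {h : ℝ → ℝ} {H : Type*} [NormedAddCommGroup H] [InnerProductSpace ℂ H] [CompleteSpace H]
  {A : H →L[ℂ] H} {δ : ℝ}

/-- integration against a continuous function is a continuous functional -/
theorem exists_intL {g : ℝ → ℂ} (hg : Continuous g) : ∃ T : (ℝ →ᵇ ℂ) →L[ℂ] ℂ,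
    ∀ u : ℝ →ᵇ ℂ, T u = ∫ t in (0 : ℝ)..(2 * π), u t * g t := by
  obtain ⟨C, hC⟩ := (isCompact_Icc (a := (0 : ℝ)) (b := 2 * π)).exists_bound_of_continuousOn
    hg.continuousOn
  have hC0 : 0 ≤ C := (norm_nonneg _).trans (hC 0 ⟨le_rfl, by positivity⟩)
  have hint : ∀ u : ℝ →ᵇ ℂ, IntervalIntegrable (fun t => u t * g t) volume 0 (2 * π) :=
    fun u => (u.continuous.mul hg).intervalIntegrable _ _
  refine ⟨LinearMap.mkContinuous
    { toFun := fun u => ∫ t in (0 : ℝ)..(2 * π), u t * g t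
      map_add' := by
        intro u v
        rw [← intervalIntegral.integral_add (hint u) (hint v)]
        refine intervalIntegral.integral_congr fun t _ => ?_
        show (u t + v t) * g t = _
        ring
      map_smul' := by
        intro c u
        show _ = c * _
        rw [← intervalIntegral.integral_const_mul]
        refine intervalIntegral.integral_congr fun t _ => ?_
        show (c * u t) * g t = _
        ring } (C * (2 * π)) (fun u => ?_), fun u => rfl⟩
  have h1 : ∀ t ∈ Set.uIoc (0 : ℝ) (2 * π), ‖u t * g t‖ ≤ ‖u‖ * C := by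
    intro t ht
    rw [Set.uIoc_of_le (by positivity)] at ht
    rw [norm_mul]
    exact mul_le_mul (u.norm_coe_le_norm t) (hC t ⟨ht.1.le, ht.2⟩) (norm_nonneg _) (norm_nonneg _)
  have h2 := intervalIntegral.norm_integral_le_of_norm_le_const h1
  rw [sub_zero, abs_of_nonneg (by positivity)] at h2
  refine h2.trans (le_of_eq ?_)
  ring

/-- exterior functions have a vanishing Cauchy transform inside, generators -/
theorem eg_cauchy (hh : Adm h) {z w : ℂ} (hz : Ins h z) (hw : Ins h w) :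
    ∫ t in (0 : ℝ)..(2 * π), (cur h t - z)⁻¹ * (dcur h t / (cur h t - w)) = 0 := by
  have hpi : Continuous (dcur h) := continuous_dcur hh
  rcases eq_or_ne z w with rfl | hzw
  · have h1 : ∀ t : ℝ, HasDerivAt (fun t => -(cur h t - z)⁻¹)
        ((cur h t - z)⁻¹ * (dcur h t / (cur h t - z))) t := by
      intro t
      have hne := hz.ne hh t
      have h2 := (((hasDerivAt_cur hh t).sub_const z).inv hne).neg
      refine h2.congr_deriv ?_
      field_simp
    have hc : Continuous fun t => (cur h t - z)⁻¹ * (dcur h t / (cur h t - z)) :=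
      (continuous_inv_sub hh hz).mul (continuous_log_deriv hh z hz)
    rw [intervalIntegral.integral_eq_sub_of_hasDerivAt (fun t _ => h1 t)
      (hc.intervalIntegrable _ _)]
    have h3 : cur h (2 * π) = cur h 0 := by
      have := cur_per hh 0
      rwa [zero_add] at this
    rw [h3, sub_self]
  · have hzw' : z - w ≠ 0 := sub_ne_zero.2 hzw
    have h1 : ∀ t, (cur h t - z)⁻¹ * (dcur h t / (cur h t - w)) =
        (z - w)⁻¹ * (dcur h t / (cur h t - z) - dcur h t / (cur h t - w)) := by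
      intro t
      have hn1 := hz.ne hh t
      have hn2 := hw.ne hh t
      field_simp
      ring
    rw [intervalIntegral.integral_congr (fun t _ => h1 t), intervalIntegral.integral_const_mul,
      intervalIntegral.integral_sub ((continuous_log_deriv hh z hz).intervalIntegrable _ _)
        ((continuous_log_deriv hh w hw).intervalIntegrable _ _),
      integral_inside hh z hz, integral_inside hh w hw, sub_self, mul_zero]

/-- exterior functions have a vanishing Cauchy transform inside -/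
theorem ext_cauchy (hh : Adm h) {u : ℝ →ᵇ ℂ} (hu : u ∈ Ext0 h A) {w : ℂ} (hw : Ins h w) :
    ∫ t in (0 : ℝ)..(2 * π), u t * (dcur h t / (cur h t - w)) = 0 := by
  obtain ⟨T, hT⟩ := exists_intL (continuous_log_deriv hh w hw)
  have hle : Ext0 h A ≤ LinearMap.ker (T : (ℝ →ᵇ ℂ) →ₗ[ℂ] ℂ) := by
    refine Ext0_le ?_ ?_
    · exact T.isClosed_ker
    · intro z hz _
      rw [LinearMap.mem_ker]
      show T (eg h z) = 0
      rw [hT, ← eg_cauchy hh hz hw]
      refine intervalIntegral.integral_congr fun t _ => ?_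
      show eg h z t * _ = _
      rw [eg_apply hh hz]
  have h1 := hle hu
  rw [LinearMap.mem_ker] at h1
  rw [← hT]
  exact h1

/-- the first component of the Cauchy transform near the boundary -/
theorem QQ_ext_sub_le (hh : Adm h) (hA : AdmA h A δ) {u : ℝ →ᵇ ℂ} (hu : u ∈ Ext0 h A)
    (ε : ℝ) (hε : 0 < ε) :
    ∃ u₀ : ℝ, u₀ < 1 ∧ ∀ r : ℝ, 0 ≤ r → u₀ < r → r < 1 → ∀ s,
      ‖(QQ h A u r).1 s - (star (u s) + np h (fun t => star (u t)) s)‖ ≤ ε := by
  have hpi := Real.pi_pos
  have hper : ∀ t, u (t + 2 * π) = u t := ext_per hh hu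
  have hsc : Continuous (fun t => star (u t)) := continuous_star.comp u.continuous
  have hsp : ∀ t, star (u (t + 2 * π)) = star (u t) := fun t => by rw [hper]
  obtain ⟨q₀, hq₀, hconv⟩ := conv hh (fun t => star (u t)) hsc hsp ε hε
  refine ⟨q₀, hq₀, fun r hr0 hr2 hr1 s => ?_⟩
  have hz : Ins h ((r : ℂ) * cur h s) := fun θ => sp_lt_of_scale hh hr0 hr1 θ s
  have hF : ∫ t in (0 : ℝ)..(2 * π), u t * (dcur h t / (cur h t - r * cur h s)) =
      2 * π * Complex.I * 0 := by
    rw [mul_zero]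
    exact ext_cauchy hh hu hz
  rw [QQ_fst hh hA u.continuous hr0 hr1, first_comp hh u.continuous hper hr0 hr1 s hF,
    np_eq hh hsc]
  have hc := hconv r hr0 hr2 hr1 s
  have h7 : ∀ a b c d : ℂ, (star a - star (0 - a) + b * c) - (star a + (star a + b * d)) =
      b * (c - d) := by
    intro a b c d
    rw [zero_sub, star_neg]
    ring
  rw [h7, norm_mul]
  have h3 : ‖(1 / π : ℂ)‖ = 1 / π := by
    rw [norm_div, norm_one, Complex.norm_real, Real.norm_eq_abs, abs_of_pos hpi]
  rw [h3]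
  have h8 : 1 / π ≤ 1 := by
    rw [div_le_one hpi]
    linarith [Real.pi_gt_three]
  have h9 := mul_le_mul h8 hc (norm_nonneg _) zero_le_one
  rw [one_mul] at h9
  exact h9

theorem ext_GG (hh : Adm h) (hA : AdmA h A δ) {u : ℝ →ᵇ ℂ} (hu : u ∈ Ext0 h A) :
    ∃ q ∈ GG h A, ∀ s, q.1 s = star (u s) + np h (fun t => star (u t)) s := by
  have hper : ∀ t, u (t + 2 * π) = u t := ext_per hh hu
  have hun : ∀ n : ℕ, (0 : ℝ) ≤ 1 - 1 / ((n : ℝ) + 1) ∧ 1 - 1 / ((n : ℝ) + 1) < (1 : ℝ) := by
    intro n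
    have hn : (0 : ℝ) < (n : ℝ) + 1 := by positivity
    constructor
    · rw [sub_nonneg, div_le_one hn]
      have : (0 : ℝ) ≤ n := Nat.cast_nonneg n
      linarith
    · have : 0 < 1 / ((n : ℝ) + 1) := by positivity
      linarith
  have hev : ∀ u₀ : ℝ, u₀ < 1 → ∃ n₀ : ℕ, ∀ n, n₀ ≤ n → u₀ < 1 - 1 / ((n : ℝ) + 1) := by
    intro u₀ hu₀
    obtain ⟨n₀, hn₀⟩ := exists_nat_one_div_lt (sub_pos.2 hu₀)
    refine ⟨n₀, fun n hn => ?_⟩
    have h2 : 1 / ((n : ℝ) + 1) ≤ 1 / ((n₀ : ℝ) + 1) := Nat.one_div_le_one_div hn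
    linarith
  obtain ⟨q, hq, h1, -⟩ := exists_limit (fun n : ℕ => QQ h A u (1 - 1 / ((n : ℝ) + 1)))
    (fun n => QQ_mem hh hA u.continuous (hun n).1 (hun n).2)
    (fun s => star (u s) + np h (fun t => star (u t)) s) (TC h A (fun t => star (u t)))
    (by
      intro ε hε
      obtain ⟨u₁, hu₁, hlim1⟩ := QQ_ext_sub_le hh hA hu ε hε
      obtain ⟨u₂, hu₂, hlim2⟩ := QQ_snd_sub_le hh hA u.continuous hper ε hε
      obtain ⟨n₀, hn₀⟩ := hev (max u₁ u₂) (max_lt hu₁ hu₂)
      refine ⟨n₀, fun n hn => ⟨fun s => ?_, ?_⟩⟩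
      · exact hlim1 _ (hun n).1 (lt_of_le_of_lt (le_max_left _ _) (hn₀ n hn)) (hun n).2 s
      · exact hlim2 _ (hun n).1 (lt_of_le_of_lt (le_max_right _ _) (hn₀ n hn)) (hun n).2)
  exact ⟨q, hq, h1⟩

end Vale.Agent.P123
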