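import Vale.Agent.Lib.P123T.Jump

namespace Vale.Agent.P123

open MeasureTheory
open scoped Real

variable {h : ℝ → ℝ}

/-- far from the diagonal the kernels are close -/
theorem far_est (hh : Adm h) (r : ℝ) (hr0 : 0 < r) : ∃ q₁ C : ℝ, 1 < q₁ ∧ 0 < C ∧
    ∀ q : ℝ, 1 < q → q < q₁ → ∀ s t : ℝ, r ≤ |t - s| → |t - s| ≤ π →
      |ker h (q * cur h s) t - ker h (cur h s) t| ≤ C * (q - 1) := by
  obtain ⟨Mc, hMc0, hMc⟩ := exists_bound_of_periodic (continuous_cur hh) (cur_per hh)
  obtain ⟨Md, hMd0, hMd⟩ := exists_bound_of_periodic (continuous_dcur hh) (dcur_per hh)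
  obtain ⟨c, hc0, hc⟩ := dist_lower hh r hr0
  refine ⟨1 + c / (2 * Mc), Md * Mc / (c / 2 * c), by
    have : 0 < c / (2 * Mc) := by positivity
    linarith, by positivity, fun q hq1 hq2 s t hts htp => ?_⟩
  have hd2 : c ≤ ‖cur h t - cur h s‖ := by
    have := hc 1 zero_le_one le_rfl s t hts htp
    simpa using this
  have hd1 : c / 2 ≤ ‖cur h t - q * cur h s‖ := by
    have h1 : cur h t - cur h s = (cur h t - q * cur h s) + ((q - 1 : ℝ) : ℂ) * cur h s := by
      push_cast
      ring
    have h2 : ‖((q - 1 : ℝ) : ℂ) * cur h s‖ ≤ c / 2 := by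
      rw [norm_mul, Complex.norm_real, Real.norm_eq_abs, abs_of_pos (by linarith)]
      have h3 : q - 1 < c / (2 * Mc) := by linarith
      have h4 : (q - 1) * ‖cur h s‖ ≤ c / (2 * Mc) * Mc :=
        mul_le_mul h3.le (hMc s) (norm_nonneg _) (by positivity)
      have h5 : c / (2 * Mc) * Mc = c / 2 := by field_simp
      linarith
    have h3 : ‖cur h t - cur h s‖ ≤ ‖cur h t - q * cur h s‖ + ‖((q - 1 : ℝ) : ℂ) * cur h s‖ := by
      conv_lhs => rw [h1]
      exact norm_add_le _ _
    linarith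
  have hn1 : cur h t - q * cur h s ≠ 0 := cur_sub_ne_out hh hq1 t s
  have hn2 : cur h t - cur h s ≠ 0 := by
    intro h0; rw [h0, norm_zero] at hd2; linarith
  rw [← im_div, ← im_div, ← Complex.sub_im]
  refine (Complex.abs_im_le_norm _).trans ?_
  have e : dcur h t / (cur h t - q * cur h s) - dcur h t / (cur h t - cur h s) =
      dcur h t * ((q - 1 : ℂ) * cur h s) / ((cur h t - q * cur h s) * (cur h t - cur h s)) := by
    field_simp
    ring
  rw [e, norm_div, norm_mul, norm_mul, norm_mul]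
  have e1 : ‖(q - 1 : ℂ)‖ = q - 1 := by
    rw [← Complex.ofReal_one, ← Complex.ofReal_sub, Complex.norm_real, Real.norm_eq_abs,
      abs_of_pos (by linarith)]
  rw [e1, div_mul_eq_mul_div]
  have e2 : ‖dcur h t‖ * ((q - 1) * ‖cur h s‖) ≤ Md * Mc * (q - 1) := by
    have h5 := mul_le_mul (hMd t) (hMc s) (norm_nonneg _) hMd0.le
    have h6 := mul_le_mul_of_nonneg_right h5 (by linarith : (0 : ℝ) ≤ q - 1)
    linarith
  exact div_le_div₀ (by have : 0 ≤ q - 1 := by linarith
                        positivity) e2 (by positivity)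
    (mul_le_mul hd1 hd2 hc0.le (by linarith))

/-- uniform convergence from outside -/
theorem conv_out_aux (hh : Adm h) (f : ℝ → ℂ) (hf : Continuous f)
    (hper : ∀ t, f (t + 2 * π) = f t) (ε : ℝ) (hε : 0 < ε) :
    ∃ q₀ : ℝ, 1 < q₀ ∧ ∀ q : ℝ, 1 < q → q < q₀ → ∀ s : ℝ,
      ‖(∫ t in (s - π)..(s + π), (f t - f s) * ((ker h (q * cur h s) t : ℝ) : ℂ))
        - ∫ t in (s - π)..(s + π), (f t - f s) * ((ker h (cur h s) t : ℝ) : ℂ)‖ ≤ ε := by
  have hpi : 0 < π := Real.pi_pos
  obtain ⟨M, hM0, hM⟩ := exists_bound_of_periodic hf hper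
  obtain ⟨C₁, hC₁, hker⟩ := exists_ker_out_le hh
  set ε' : ℝ := ε / (2 * (2 * π * C₁ + π)) with hε'
  have hε'0 : 0 < ε' := by positivity
  obtain ⟨r, hr0, hr⟩ := exists_delta_of_periodic hf hper ε' hε'0
  obtain ⟨q₁, C, hq₁, hC0, hfar⟩ := far_est hh r hr0
  set B : ℝ := 4 * π * M * C with hB
  have hB0 : 0 < B := by positivity
  have hq₀1 : 0 < ε / (2 * (B + 1)) := by positivity
  refine ⟨min (min q₁ (3 / 2)) (1 + ε / (2 * (B + 1))), lt_min (lt_min hq₁ (by norm_num))
    (by linarith), ?_⟩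
  intro q hq1 hq2 s
  have hqa : q < q₁ := lt_of_lt_of_le hq2 ((min_le_left _ _).trans (min_le_left _ _))
  have hqb : q ≤ 3 / 2 := (lt_of_lt_of_le hq2 ((min_le_left _ _).trans (min_le_right _ _))).le
  have hqc : q < 1 + ε / (2 * (B + 1)) := lt_of_lt_of_le hq2 (min_le_right _ _)
  have hqB : B * (q - 1) ≤ ε / 2 := by
    have h1 : (B + 1) * (q - 1) ≤ (B + 1) * (ε / (2 * (B + 1))) :=
      mul_le_mul_of_nonneg_left (by linarith) (by positivity)
    have h2 : (B + 1) * (ε / (2 * (B + 1))) = ε / 2 := by field_simp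
    nlinarith
  have hk1 : ∀ t, 0 ≤ ker h (cur h s) t := fun t => ker_nonneg hh (fun θ => sp_cur_le hh θ s) t
  set z' : ℂ := ((2 - q : ℝ) : ℂ) * cur h s with hz'
  have hzin : ∀ θ, sp θ z' < h θ := fun θ => sp_lt_of_scale hh (by linarith) (by linarith) θ s
  have hkq' : ∀ t, 0 ≤ ker h z' t := fun t => ker_nonneg hh (fun θ => (hzin θ).le) t
  have hcq : Continuous (ker h (q * cur h s)) := continuous_ker_out hh hq1 s
  have hcq' : Continuous (ker h z') := continuous_ker_inside hh _ hzin
  have hI1 : IntervalIntegrable (ker h (cur h s)) volume (s - π) (s + π) :=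
    intervalIntegrable_ker hh s
  have hIq' : IntervalIntegrable (ker h z') volume (s - π) (s + π) :=
    hcq'.intervalIntegrable _ _
  have hfc : Continuous fun t => f t - f s := hf.sub continuous_const
  have hJ1 : IntervalIntegrable (fun t => (f t - f s) * ((ker h (cur h s) t : ℝ) : ℂ)) volume
      (s - π) (s + π) := by
    have h1 : IntervalIntegrable (fun t => ((ker h (cur h s) t : ℝ) : ℂ)) volume
        (s - π) (s + π) := ⟨hI1.1.ofReal, hI1.2.ofReal⟩
    exact h1.continuousOn_mul hfc.continuousOn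
  have hJq : IntervalIntegrable (fun t => (f t - f s) * ((ker h (q * cur h s) t : ℝ) : ℂ)) volume
      (s - π) (s + π) := by
    refine Continuous.intervalIntegrable ?_ _ _
    exact hfc.mul (Complex.continuous_ofReal.comp hcq)
  rw [← intervalIntegral.integral_sub hJq hJ1]
  have hbd : ∀ t ∈ Set.Ioc (s - π) (s + π),
      ‖(f t - f s) * ((ker h (q * cur h s) t : ℝ) : ℂ) -
        (f t - f s) * ((ker h (cur h s) t : ℝ) : ℂ)‖ ≤
      ε' * (C₁ * ker h z' t + ker h (cur h s) t) + 2 * M * (C * (q - 1)) := by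
    intro t ht
    have hts : |t - s| ≤ π := by
      rw [abs_le]; constructor <;> linarith [ht.1, ht.2]
    have hk1t := hk1 t
    have hkqt := hkq' t
    have hkq := hker q hq1 hqb s t
    rw [← hz'] at hkq
    rw [← mul_sub, norm_mul, ← Complex.ofReal_sub, Complex.norm_real, Real.norm_eq_abs]
    by_cases hnear : |t - s| < r
    · have h1 : ‖f t - f s‖ ≤ ε' := hr t s hnear
      have h2 : |ker h (q * cur h s) t - ker h (cur h s) t| ≤
          C₁ * ker h z' t + ker h (cur h s) t := by
        refine (abs_sub _ _).trans ?_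
        rw [abs_of_nonneg hk1t]
        linarith
      have h3 := mul_le_mul h1 h2 (abs_nonneg _) hε'0.le
      have h4 : 0 ≤ 2 * M * (C * (q - 1)) := by
        have : 0 ≤ q - 1 := by linarith
        positivity
      linarith
    · push Not at hnear
      have h2 := hfar q hq1 hqa s t hnear hts
      have h1 : ‖f t - f s‖ ≤ 2 * M := by
        refine (norm_sub_le _ _).trans ?_
        linarith [hM t, hM s]
      have h3 := mul_le_mul h1 h2 (abs_nonneg _) (by positivity)
      have h4 : 0 ≤ ε' * (C₁ * ker h z' t + ker h (cur h s) t) := by positivity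
      linarith
  have hle : s - π ≤ s + π := by linarith
  refine (intervalIntegral.norm_integral_le_of_norm_le hle
    (Filter.Eventually.of_forall hbd) ?_).trans ?_
  · exact (((hIq'.const_mul C₁).add hI1).const_mul ε').add intervalIntegrable_const
  · rw [intervalIntegral.integral_add (((hIq'.const_mul C₁).add hI1).const_mul ε')
        intervalIntegrable_const,
      intervalIntegral.integral_const_mul, intervalIntegral.integral_add (hIq'.const_mul C₁) hI1,
      intervalIntegral.integral_const, intervalIntegral.integral_const_mul,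
      integral_ker_inside hh _ hzin s]
    have hTh := Th_le hh s
    unfold Th at hTh
    have e1 : ε' * (C₁ * (2 * π) + ∫ t in (s - π)..(s + π), ker h (cur h s) t) ≤
        ε' * (C₁ * (2 * π) + π) :=
      mul_le_mul_of_nonneg_left (by linarith) hε'0.le
    have e2 : ε' * (C₁ * (2 * π) + π) = ε / 2 := by
      rw [hε']; field_simp
    have e3 : (s + π - (s - π)) • (2 * M * (C * (q - 1))) = B * (q - 1) := by
      rw [hB, smul_eq_mul]; ring
    rw [e3]
    linarith

/-- exterior double layer potential -/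
theorem conv_out (hh : Adm h) (f : ℝ → ℂ) (hf : Continuous f) (hper : ∀ t, f (t + 2 * π) = f t)
    (ε : ℝ) (hε : 0 < ε) :
    ∃ q₀ : ℝ, 1 < q₀ ∧ ∀ q : ℝ, 1 < q → q < q₀ → ∀ s : ℝ,
      ‖(1 / π : ℂ) * (∫ t in (0 : ℝ)..(2 * π), f t * ((ker h (q * cur h s) t : ℝ) : ℂ))
        - (np h f s - f s)‖ ≤ ε := by
  obtain ⟨q₀, hq₀, H⟩ := conv_out_aux hh f hf hper (π * ε) (by positivity)
  refine ⟨q₀, hq₀, fun q hq1 hq2 s => ?_⟩
  have h1 := H q hq1 hq2 s
  have hck : Continuous (fun t => ((ker h (q * cur h s) t : ℝ) : ℂ)) :=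
    Complex.continuous_ofReal.comp (continuous_ker_out hh hq1 s)
  have hp : Function.Periodic (fun t => f t * ((ker h (q * cur h s) t : ℝ) : ℂ)) (2 * π) := by
    intro t
    show f (t + 2 * π) * ((ker h (q * cur h s) (t + 2 * π) : ℝ) : ℂ) = _
    rw [hper, ker_shift hh]
  have hshift := hp.intervalIntegral_add_eq (s - π) 0
  rw [zero_add, show s - π + 2 * π = s + π by ring] at hshift
  have hsub : ∫ t in (s - π)..(s + π), (f t - f s) * ((ker h (q * cur h s) t : ℝ) : ℂ) =
      ∫ t in (0 : ℝ)..(2 * π), f t * ((ker h (q * cur h s) t : ℝ) : ℂ) := by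
    rw [← hshift]
    have h2 : ∀ t, (f t - f s) * ((ker h (q * cur h s) t : ℝ) : ℂ) =
        f t * ((ker h (q * cur h s) t : ℝ) : ℂ) - f s * ((ker h (q * cur h s) t : ℝ) : ℂ) :=
      fun t => by ring
    have hc1 : Continuous (fun t => f t * ((ker h (q * cur h s) t : ℝ) : ℂ)) := hf.mul hck
    have hc2 : Continuous (fun t => f s * ((ker h (q * cur h s) t : ℝ) : ℂ)) :=
      continuous_const.mul hck
    rw [intervalIntegral.integral_congr (fun t _ => h2 t), intervalIntegral.integral_sub
      (hc1.intervalIntegrable _ _) (hc2.intervalIntegrable _ _),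
      intervalIntegral.integral_const_mul, intervalIntegral.integral_ofReal,
      integral_ker_out hh hq1]
    simp
  rw [hsub] at h1
  rw [np_eq hh hf, add_sub_cancel_left, ← mul_sub, norm_mul]
  have h3 : ‖(1 / π : ℂ)‖ = 1 / π := by
    rw [norm_div, norm_one, Complex.norm_real, Real.norm_eq_abs, abs_of_pos Real.pi_pos]
  rw [h3]
  have hpi := Real.pi_pos
  calc 1 / π * _ ≤ 1 / π * (π * ε) := mul_le_mul_of_nonneg_left h1 (by positivity)
    _ = ε := by field_simp

end Vale.Agent.P123
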