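import Vale.Agent.Lib.P123T.Eg
import Vale.Agent.Lib.P123T.JumpB
import Vale.Agent.Lib.P123.AlgB

namespace Vale.Agent.P123

open MeasureTheory
open scoped Real InnerProductSpace BoundedContinuousFunction

variable {h : ℝ → ℝ} {H : Type*} [NormedAddCommGroup H] [InnerProductSpace ℂ H] [CompleteSpace H]
  {A : H →L[ℂ] H} {δ : ℝ}

theorem ins_scale (hh : Adm h) {q : ℝ} (hq : 1 < q) (t : ℝ) :
    Ins h (((q⁻¹ : ℝ) : ℂ) * cur h t) := fun θ =>
  sp_lt_of_scale hh (by positivity) (inv_lt_one_of_one_lt₀ hq) θ t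

/-- points near the curve are outside the spectrum -/
theorem exists_isUnit_near (hh : Adm h) (hA : AdmA h A δ) : ∃ q₁ : ℝ, 1 < q₁ ∧
    ∀ q : ℝ, 1 < q → q < q₁ → ∀ t,
      IsUnit (algebraMap ℂ (H →L[ℂ] H) (((q⁻¹ : ℝ) : ℂ) * cur h t) - A) := by
  obtain ⟨M, hM0, hM⟩ := exists_bound_of_periodic (continuous_cur hh) (cur_per hh)
  have hδ := hA.δ_pos
  refine ⟨1 + δ / M, by have : 0 < δ / M := by positivity
                        linarith, fun q hq1 hq2 t => ?_⟩
  set ε : ℂ := ((1 - q⁻¹ : ℝ) : ℂ) * cur h t with hε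
  have hq0 : 0 < q := by linarith
  have hnε : ‖ε‖ < δ := by
    rw [hε, norm_mul, Complex.norm_real, Real.norm_eq_abs]
    have h1 : 0 < 1 - q⁻¹ := by
      have := inv_lt_one_of_one_lt₀ hq1
      linarith
    have h2 : 1 - q⁻¹ < δ / M := by
      have h3 : 1 - q⁻¹ ≤ q - 1 := by
        have h4 : q⁻¹ * q = 1 := inv_mul_cancel₀ hq0.ne'
        have h5 := mul_pos h1 (by linarith : 0 < q - 1)
        nlinarith
      linarith
    rw [abs_of_pos h1]
    calc (1 - q⁻¹) * ‖cur h t‖ ≤ (1 - q⁻¹) * M := mul_le_mul_of_nonneg_left (hM t) h1.le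
      _ < δ / M * M := mul_lt_mul_of_pos_right h2 hM0
      _ = δ := by field_simp
  have e1 : algebraMap ℂ (H →L[ℂ] H) (((q⁻¹ : ℝ) : ℂ) * cur h t) - A =
      pen h A 1 t * (1 - ε • res h A 1 t) := by
    rw [mul_sub, mul_one, mul_smul_comm, pen_mul_res hA zero_le_one le_rfl]
    unfold pen
    rw [hε, Algebra.algebraMap_eq_smul_one, Algebra.algebraMap_eq_smul_one, Complex.ofReal_one,
      one_smul, sub_right_comm, ← sub_smul]
    congr 2
    push_cast
    ring
  rw [e1]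
  refine (isUnit_pen hA zero_le_one le_rfl t).mul ?_
  apply isUnit_one_sub_of_norm_lt_one
  rw [norm_smul]
  calc ‖ε‖ * ‖res h A 1 t‖ ≤ ‖ε‖ * δ⁻¹ :=
        mul_le_mul_of_nonneg_left (norm_res_le hA zero_le_one le_rfl t) (norm_nonneg _)
    _ < δ * δ⁻¹ := mul_lt_mul_of_pos_right hnε (by positivity)
    _ = 1 := mul_inv_cancel₀ hδ.ne'

/-- continuity of the generators in the parameter -/
theorem continuous_eg_scale (hh : Adm h) {q : ℝ} (hq : 1 < q) :
    Continuous (fun t => eg h (((q⁻¹ : ℝ) : ℂ) * cur h t)) := by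
  obtain ⟨m, hm0, hm⟩ := exists_h_lower hh
  have hq1 : q⁻¹ < 1 := inv_lt_one_of_one_lt₀ hq
  have hq0 : 0 ≤ q⁻¹ := by positivity
  set c : ℝ := (1 - q⁻¹) * m with hc
  have hc0 : 0 < c := mul_pos (by linarith) hm0
  have hlow : ∀ s t, c ≤ ‖cur h s - ((q⁻¹ : ℝ) : ℂ) * cur h t‖ := fun s t => by
    refine le_trans ?_ (norm_sub_ge hh hq0 hq1.le s t)
    exact mul_le_mul_of_nonneg_left (hm s) (by linarith)
  have hkey : ∀ t t', ‖eg h (((q⁻¹ : ℝ) : ℂ) * cur h t) - eg h (((q⁻¹ : ℝ) : ℂ) * cur h t')‖ ≤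
      ‖cur h t - cur h t'‖ * (c⁻¹ * c⁻¹) := by
    intro t t'
    rw [BoundedContinuousFunction.norm_le (by positivity)]
    intro s
    rw [BoundedContinuousFunction.sub_apply, eg_apply hh (ins_scale hh hq t),
      eg_apply hh (ins_scale hh hq t')]
    set x := cur h s - ((q⁻¹ : ℝ) : ℂ) * cur h t with hx
    set y := cur h s - ((q⁻¹ : ℝ) : ℂ) * cur h t' with hy
    have hx0 : x ≠ 0 := (ins_scale hh hq t).ne hh s
    have hy0 : y ≠ 0 := (ins_scale hh hq t').ne hh s
    have e1 : x⁻¹ - y⁻¹ = (y - x) * (x⁻¹ * y⁻¹) := by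
      field_simp
    have e2 : y - x = ((q⁻¹ : ℝ) : ℂ) * (cur h t - cur h t') := by
      rw [hx, hy]; ring
    rw [e1, e2, norm_mul, norm_mul, norm_mul, norm_inv, norm_inv, Complex.norm_real,
      Real.norm_eq_abs, abs_of_nonneg hq0]
    have h1 : ‖x‖⁻¹ ≤ c⁻¹ := inv_anti₀ hc0 (hlow s t)
    have h2 : ‖y‖⁻¹ ≤ c⁻¹ := inv_anti₀ hc0 (hlow s t')
    have h3 : q⁻¹ * ‖cur h t - cur h t'‖ ≤ ‖cur h t - cur h t'‖ := by
      have := mul_le_mul_of_nonneg_right hq1.le (norm_nonneg (cur h t - cur h t'))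
      linarith
    exact mul_le_mul h3 (mul_le_mul h1 h2 (by positivity) (by positivity)) (by positivity)
      (norm_nonneg _)
  rw [continuous_iff_continuousAt]
  intro t'
  rw [ContinuousAt, tendsto_iff_norm_sub_tendsto_zero]
  have hlim : Filter.Tendsto (fun t => ‖cur h t - cur h t'‖ * (c⁻¹ * c⁻¹)) (nhds t') (nhds 0) := by
    have hc : Continuous (fun t => ‖cur h t - cur h t'‖ * (c⁻¹ * c⁻¹)) :=
      (((continuous_cur hh).sub continuous_const).norm).mul continuous_const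
    have := hc.tendsto t'
    simpa using this
  exact squeeze_zero (fun _ => norm_nonneg _) (fun t => hkey t t') hlim

/-- the exterior Cauchy transform on the curve `q γ`, `q > 1` -/
noncomputable def EE (h : ℝ → ℝ) (q : ℝ) (f : ℝ → ℂ) : ℝ →ᵇ ℂ :=
  (-(q : ℂ)⁻¹ * (2 * π * Complex.I : ℂ)⁻¹) •
    ∫ t in (0 : ℝ)..(2 * π), (f t * dcur h t) • eg h (((q⁻¹ : ℝ) : ℂ) * cur h t)

theorem continuous_EE_integrand (hh : Adm h) {q : ℝ} (hq : 1 < q) {f : ℝ → ℂ}
    (hf : Continuous f) :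
    Continuous (fun t => (f t * dcur h t) • eg h (((q⁻¹ : ℝ) : ℂ) * cur h t)) :=
  (hf.mul (continuous_dcur hh)).smul (continuous_eg_scale hh hq)

theorem EE_mem (hh : Adm h) {q : ℝ} (hq : 1 < q)
    (hu : ∀ t, IsUnit (algebraMap ℂ (H →L[ℂ] H) (((q⁻¹ : ℝ) : ℂ) * cur h t) - A))
    {f : ℝ → ℂ} (hf : Continuous f) : EE h q f ∈ Ext0 h A := by
  refine (Ext0 h A).smul_mem _ ?_
  exact integral_mem_closed (Ext0 h A) isClosed_Ext0 _ (continuous_EE_integrand hh hq hf)
    (fun t => (Ext0 h A).smul_mem _ (eg_mem (ins_scale hh hq t) (hu t))) 0 (2 * π)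

theorem EE_apply (hh : Adm h) {q : ℝ} (hq : 1 < q) {f : ℝ → ℂ} (hf : Continuous f) (s : ℝ) :
    EE h q f s = (2 * π * Complex.I : ℂ)⁻¹ *
      ∫ t in (0 : ℝ)..(2 * π), f t * (dcur h t / (cur h t - q * cur h s)) := by
  have hq0 : (q : ℂ) ≠ 0 := by
    have : q ≠ 0 := by positivity
    exact_mod_cast this
  have e := (BoundedContinuousFunction.evalCLM ℂ s).intervalIntegral_comp_comm
    ((continuous_EE_integrand hh hq hf).intervalIntegrable (μ := volume) 0 (2 * π))
  have e2 : EE h q f s = (-(q : ℂ)⁻¹ * (2 * π * Complex.I : ℂ)⁻¹) *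
      (∫ t in (0 : ℝ)..(2 * π), (f t * dcur h t) • eg h (((q⁻¹ : ℝ) : ℂ) * cur h t)) s := rfl
  have e3 : (∫ t in (0 : ℝ)..(2 * π), (f t * dcur h t) • eg h (((q⁻¹ : ℝ) : ℂ) * cur h t)) s =
      ∫ t in (0 : ℝ)..(2 * π), (f t * dcur h t) * eg h (((q⁻¹ : ℝ) : ℂ) * cur h t) s := e.symm
  rw [e2, e3, mul_comm (-(q : ℂ)⁻¹), mul_assoc, ← intervalIntegral.integral_const_mul]
  congr 1
  apply intervalIntegral.integral_congr
  intro t _
  show -(q : ℂ)⁻¹ * ((f t * dcur h t) * eg h (((q⁻¹ : ℝ) : ℂ) * cur h t) s) = _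
  rw [eg_apply hh (ins_scale hh hq t)]
  have h1 : cur h s - ((q⁻¹ : ℝ) : ℂ) * cur h t = -(q : ℂ)⁻¹ * (cur h t - q * cur h s) := by
    push_cast
    field_simp
    ring
  have h2 : cur h t - q * cur h s ≠ 0 := cur_sub_ne_out hh hq t s
  rw [h1]
  field_simp

/-- decomposition of the exterior double layer potential -/
theorem dl_out (hh : Adm h) {q : ℝ} (hq : 1 < q) {f : ℝ → ℂ} (hf : Continuous f) (s : ℝ) :
    (1 / π : ℂ) * (∫ t in (0 : ℝ)..(2 * π), f t * ((ker h (q * cur h s) t : ℝ) : ℂ)) =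
      EE h q f s + star (EE h q (fun t => star (f t)) s) := by
  have hcg : Continuous (fun t => dcur h t / (cur h t - q * cur h s)) :=
    continuous_log_deriv_out hh hq s
  have hpi : (π : ℂ) ≠ 0 := by exact_mod_cast Real.pi_ne_zero
  have hsf : Continuous (fun t => star (f t)) := continuous_star.comp hf
  rw [EE_apply hh hq hf, EE_apply hh hq hsf]
  have hstar : star (∫ t in (0 : ℝ)..(2 * π), star (f t) * (dcur h t / (cur h t - q * cur h s))) =
      ∫ t in (0 : ℝ)..(2 * π), star (star (f t) * (dcur h t / (cur h t - q * cur h s))) :=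
    (Complex.conjCLE.toContinuousLinearMap.intervalIntegral_comp_comm
      ((hsf.mul hcg).intervalIntegrable _ _)).symm
  have hstar2 : star ((2 * π * Complex.I : ℂ)⁻¹) = -(2 * π * Complex.I : ℂ)⁻¹ := by
    rw [star_inv₀, ← inv_neg]
    congr 1
    simp
  rw [star_mul', hstar2, hstar]
  have hi1 : Continuous (fun t => f t * (dcur h t / (cur h t - q * cur h s))) := hf.mul hcg
  have hi2 : Continuous (fun t => star (star (f t) * (dcur h t / (cur h t - q * cur h s)))) :=
    continuous_star.comp (hsf.mul hcg)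
  rw [neg_mul, ← sub_eq_add_neg, ← mul_sub, ← intervalIntegral.integral_sub
    (hi1.intervalIntegrable _ _) (hi2.intervalIntegrable _ _)]
  have e1 : ∀ t, f t * (dcur h t / (cur h t - q * cur h s)) -
      star (star (f t) * (dcur h t / (cur h t - q * cur h s))) =
      (2 * Complex.I) * (f t * ((ker h (q * cur h s) t : ℝ) : ℂ)) := by
    intro t
    rw [← im_div t (q * cur h s)]
    set g := dcur h t / (cur h t - q * cur h s) with hg
    have h1 : g - star g = 2 * Complex.I * ((g.im : ℝ) : ℂ) := by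
      apply Complex.ext <;> simp
      ring
    rw [star_mul', star_star, ← mul_sub, h1]
    ring
  rw [intervalIntegral.integral_congr (fun t _ => e1 t), intervalIntegral.integral_const_mul]
  field_simp

theorem one_div_pi_norm : ‖(1 / π : ℂ)‖ = 1 / π := by
  rw [norm_div, norm_one, Complex.norm_real, Real.norm_eq_abs, abs_of_pos Real.pi_pos]

/-- `φ - P φ` is approximated by exterior functions and their conjugates -/
theorem ext_dense (hh : Adm h) (hA : AdmA h A δ) (u : ℝ →ᵇ ℂ) (hu : ∀ t, u (t + 2 * π) = u t)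
    (ε : ℝ) (hε : 0 < ε) :
    ∃ a ∈ Ext0 h A, ∃ b ∈ Ext0 h A, ∀ s, ‖u s - np h u s - (a s + star (b s))‖ ≤ ε := by
  obtain ⟨q₁, hq₁, hunit⟩ := exists_isUnit_near hh hA
  obtain ⟨q₀, hq₀, hconv⟩ := conv_out hh u u.continuous hu ε hε
  set q : ℝ := (1 + min q₀ q₁) / 2 with hq
  have hmin : 1 < min q₀ q₁ := lt_min hq₀ hq₁
  have h1q : 1 < q := by rw [hq]; linarith
  have hqm : q < min q₀ q₁ := by rw [hq]; linarith
  have hqq₀ : q < q₀ := lt_of_lt_of_le hqm (min_le_left _ _)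
  have hqq₁ : q < q₁ := lt_of_lt_of_le hqm (min_le_right _ _)
  have hsu : Continuous (fun t => star (u t)) := continuous_star.comp u.continuous
  refine ⟨-EE h q u, (Ext0 h A).neg_mem (EE_mem hh h1q (hunit q h1q hqq₁) u.continuous),
    -EE h q (fun t => star (u t)), (Ext0 h A).neg_mem (EE_mem hh h1q (hunit q h1q hqq₁) hsu),
    fun s => ?_⟩
  have h2 := hconv q h1q hqq₀ s
  rw [dl_out hh h1q u.continuous] at h2
  have e : u s - np h u s - ((-EE h q u) s + star ((-EE h q (fun t => star (u t))) s)) =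
      EE h q u s + star (EE h q (fun t => star (u t)) s) - (np h u s - u s) := by
    rw [BoundedContinuousFunction.neg_apply, BoundedContinuousFunction.neg_apply, star_neg]
    ring
  rw [e]
  exact h2

/-- exterior Cauchy transform of a generator -/
theorem EE_eg (hh : Adm h) {q : ℝ} (hq : 1 < q) {z : ℂ} (hz : Ins h z) (s : ℝ) :
    EE h q (eg h z) s = -(q * cur h s - z)⁻¹ := by
  rw [EE_apply hh hq (eg h z).continuous]
  have hne : q * cur h s - z ≠ 0 := by
    intro h0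
    have h1 : z = q * cur h s := by linear_combination -h0
    have h2 := hz s
    rw [h1, sp_smul, sp_cur_self] at h2
    have := hh.pos s
    nlinarith
  have e1 : ∀ t, eg h z t * (dcur h t / (cur h t - q * cur h s)) =
      (q * cur h s - z)⁻¹ * (dcur h t / (cur h t - q * cur h s) - dcur h t / (cur h t - z)) := by
    intro t
    rw [eg_apply hh hz]
    have h1 := hz.ne hh t
    have h2 := cur_sub_ne_out hh hq t s
    field_simp
    ring
  have hc1 : Continuous (fun t => dcur h t / (cur h t - q * cur h s)) :=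
    continuous_log_deriv_out hh hq s
  have hc2 : Continuous (fun t => dcur h t / (cur h t - z)) := continuous_log_deriv hh z hz
  rw [intervalIntegral.integral_congr (fun t _ => e1 t), intervalIntegral.integral_const_mul,
    intervalIntegral.integral_sub (hc1.intervalIntegrable _ _) (hc2.intervalIntegrable _ _),
    integral_out hh hq, integral_inside hh z hz]
  have hpi : (π : ℂ) ≠ 0 := by exact_mod_cast Real.pi_ne_zero
  field_simp
  ring

/-- the generator case -/
theorem ext_np_star_gen (hh : Adm h) (hA : AdmA h A δ) {z : ℂ} (hz : Ins h z) :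
    ∃ v ∈ Ext0 h A, ∀ s, v s = np h (fun t => star (eg h z t)) s := by
  apply exists_mem_of_approx (Ext0 h A) isClosed_Ext0
  intro ε hε
  obtain ⟨q₁, hq₁, hunit⟩ := exists_isUnit_near hh hA
  have hsu : Continuous (fun t => star (eg h z t)) := continuous_star.comp (eg h z).continuous
  have hsp : ∀ t, star (eg h z (t + 2 * π)) = star (eg h z t) := fun t => by
    rw [eg_apply hh hz, eg_apply hh hz, cur_per hh]
  obtain ⟨q₀, hq₀, hconv⟩ := conv_out hh (fun t => star (eg h z t)) hsu hsp (ε / 2)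
    (by positivity)
  obtain ⟨c, hc0, hc⟩ := hz.exists_dist hh
  obtain ⟨M, hM0, hM⟩ := exists_bound_of_periodic (continuous_cur hh) (cur_per hh)
  -- choose `q` close to one
  set q₂ : ℝ := 1 + min (c / (2 * M)) (ε * c ^ 2 / (4 * M)) with hq₂
  have hq₂1 : 1 < q₂ := by
    have : 0 < min (c / (2 * M)) (ε * c ^ 2 / (4 * M)) := lt_min (by positivity) (by positivity)
    linarith
  set m : ℝ := min (min q₀ q₁) q₂ with hm
  have hmin : 1 < m := lt_min (lt_min hq₀ hq₁) hq₂1
  set q : ℝ := (1 + m) / 2 with hq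
  have h1q : 1 < q := by rw [hq]; linarith
  have hqm : q < m := by rw [hq]; linarith
  have hqq₀ : q < q₀ := lt_of_lt_of_le hqm ((min_le_left _ _).trans (min_le_left _ _))
  have hqq₁ : q < q₁ := lt_of_lt_of_le hqm ((min_le_left _ _).trans (min_le_right _ _))
  have hqq₂ : q < q₂ := lt_of_lt_of_le hqm (min_le_right _ _)
  have hqa : (q - 1) * M ≤ c / 2 := by
    have h1 : q - 1 ≤ c / (2 * M) := by
      have := min_le_left (c / (2 * M)) (ε * c ^ 2 / (4 * M))
      linarith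
    calc (q - 1) * M ≤ c / (2 * M) * M := mul_le_mul_of_nonneg_right h1 hM0.le
      _ = c / 2 := by field_simp
  have hqb : (q - 1) * M ≤ ε * c ^ 2 / 4 := by
    have h1 : q - 1 ≤ ε * c ^ 2 / (4 * M) := by
      have := min_le_right (c / (2 * M)) (ε * c ^ 2 / (4 * M))
      linarith
    calc (q - 1) * M ≤ ε * c ^ 2 / (4 * M) * M := mul_le_mul_of_nonneg_right h1 hM0.le
      _ = ε * c ^ 2 / 4 := by field_simp
  refine ⟨EE h q (fun t => star (eg h z t)), EE_mem hh h1q (hunit q h1q hqq₁) hsu, fun s => ?_⟩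
  have h2 := hconv q h1q hqq₀ s
  rw [dl_out hh h1q hsu] at h2
  have e0 : (fun t => star (star (eg h z t))) = (eg h z : ℝ → ℂ) := by
    funext t
    exact star_star _
  rw [e0, EE_eg hh h1q hz] at h2
  have hdiff : ‖(q * cur h s - z)⁻¹ - (cur h s - z)⁻¹‖ ≤ ε / 2 := by
    set x := q * cur h s - z with hx
    set y := cur h s - z with hy
    have hy1 : c ≤ ‖y‖ := hc s
    have hxy : x - y = ((q - 1 : ℝ) : ℂ) * cur h s := by
      rw [hx, hy]; push_cast; ring
    have hnxy : ‖x - y‖ ≤ (q - 1) * M := by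
      rw [hxy, norm_mul, Complex.norm_real, Real.norm_eq_abs, abs_of_pos (by linarith)]
      exact mul_le_mul_of_nonneg_left (hM s) (by linarith)
    have hx1 : c / 2 ≤ ‖x‖ := by
      have h3 : ‖y‖ ≤ ‖x‖ + ‖x - y‖ := by
        have : y = x - (x - y) := by ring
        conv_lhs => rw [this]
        exact norm_sub_le _ _
      linarith
    have hx0 : x ≠ 0 := norm_pos_iff.1 (by linarith)
    have hy0 : y ≠ 0 := norm_pos_iff.1 (by linarith)
    have e1 : x⁻¹ - y⁻¹ = -((x - y) * (x⁻¹ * y⁻¹)) := by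
      field_simp
      ring
    rw [e1, norm_neg, norm_mul, norm_mul, norm_inv, norm_inv]
    have h3 : ‖x‖⁻¹ ≤ (c / 2)⁻¹ := inv_anti₀ (by positivity) hx1
    have h4 : ‖y‖⁻¹ ≤ c⁻¹ := inv_anti₀ hc0 hy1
    calc ‖x - y‖ * (‖x‖⁻¹ * ‖y‖⁻¹) ≤ (ε * c ^ 2 / 4) * ((c / 2)⁻¹ * c⁻¹) :=
          mul_le_mul (hnxy.trans hqb) (mul_le_mul h3 h4 (by positivity) (by positivity))
            (by positivity) (by positivity)
      _ = ε / 2 := by field_simp; norm_num
  have e : EE h q (fun t => star (eg h z t)) s - np h (fun t => star (eg h z t)) s =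
      (EE h q (fun t => star (eg h z t)) s + star (-(q * cur h s - z)⁻¹) -
        (np h (fun t => star (eg h z t)) s - star (eg h z s))) +
      star ((q * cur h s - z)⁻¹ - (cur h s - z)⁻¹) := by
    rw [eg_apply hh hz s, star_neg, star_sub]
    ring
  rw [e]
  refine (norm_add_le _ _).trans ?_
  rw [norm_star]
  linarith

theorem ext_np_star (hh : Adm h) (hA : AdmA h A δ) {u : ℝ →ᵇ ℂ} (hu : u ∈ Ext0 h A) :
    ∃ v ∈ Ext0 h A, ∀ s, v s = np h (fun t => star (u t)) s := by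
  obtain ⟨N, hN, hNb⟩ := exists_NP hh
  let S : Submodule ℂ (ℝ →ᵇ ℂ) :=
    { carrier := {u | ∃ v ∈ Ext0 h A, ∀ s, v s = N s (star u)}
      zero_mem' := ⟨0, (Ext0 h A).zero_mem, fun s => by
        rw [star_zero, map_zero]; rfl⟩
      add_mem' := by
        rintro p p' ⟨q, hq, h1⟩ ⟨q', hq', h1'⟩
        refine ⟨q + q', (Ext0 h A).add_mem hq hq', fun s => ?_⟩
        rw [star_add, map_add, ← h1, ← h1']; rfl
      smul_mem' := by
        rintro c p ⟨q, hq, h1⟩
        refine ⟨star c • q, (Ext0 h A).smul_mem _ hq, fun s => ?_⟩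
        rw [star_smul, map_smul, ← h1]; rfl }
  have hS : IsClosed (S : Set (ℝ →ᵇ ℂ)) := by
    apply IsSeqClosed.isClosed
    intro x p hx hxp
    apply exists_mem_of_approx (Ext0 h A) isClosed_Ext0
    intro ε hε
    rw [Metric.tendsto_atTop] at hxp
    obtain ⟨n, hn⟩ := hxp ε hε
    obtain ⟨v, hv, hv2⟩ := hx n
    refine ⟨v, hv, fun s => ?_⟩
    rw [hv2 s, ← map_sub, ← star_sub]
    refine (hNb s _).trans ?_
    rw [norm_star, ← dist_eq_norm]
    exact (hn n le_rfl).le
  have hle : Ext0 h A ≤ S := Ext0_le hS (fun z hz _ => by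
    obtain ⟨v, hv, hv2⟩ := ext_np_star_gen hh hA hz
    refine ⟨v, hv, fun s => ?_⟩
    rw [hv2 s, hN]
    rfl)
  obtain ⟨v, hv, hv2⟩ := hle hu
  refine ⟨v, hv, fun s => ?_⟩
  rw [hv2 s, hN]
  rfl

end Vale.Agent.P123
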