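import Vale.Agent.Lib.P123T.ExtMul
import Vale.Agent.Lib.P123T.ExtNP

namespace Vale.Agent.P123

open MeasureTheory Filter Topology
open scoped Real InnerProductSpace BoundedContinuousFunction

variable {H : Type*} [NormedAddCommGroup H] [InnerProductSpace ℂ H] [CompleteSpace H]
variable {h : ℝ → ℝ} {A : H →L[ℂ] H} {δ : ℝ}

/-- the Neumann-Poincare operator is real -/
theorem np_star (hh : Adm h) {k : ℝ → ℂ} (hk : Continuous k) (s : ℝ) :
    np h (fun t => star (k t)) s = star (np h k s) := by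
  rw [np_simple hh, np_simple hh, star_mul']
  have h1 : star (∫ t in (s - π)..(s + π), ((ker h (cur h s) t : ℝ) : ℂ) * k t) =
      ∫ t in (s - π)..(s + π), star (((ker h (cur h s) t : ℝ) : ℂ) * k t) :=
    (Complex.conjCLE.toContinuousLinearMap.intervalIntegral_comp_comm
      (integrable_ker_mul hh hk s)).symm
  have h2 : star (1 / π : ℂ) = 1 / π := by
    rw [star_div₀, star_one]
    congr 1
    exact Complex.conj_ofReal π
  rw [h1, h2]
  congr 1
  apply intervalIntegral.integral_congr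
  intro t _
  show ((ker h (cur h s) t : ℝ) : ℂ) * star (k t) = star (((ker h (cur h s) t : ℝ) : ℂ) * k t)
  rw [star_mul']
  congr 1
  exact (Complex.conj_ofReal _).symm

theorem N_star_mem (hh : Adm h) (hA : AdmA h A δ) (M : Mk h) {u : ℝ →ᵇ ℂ} (hu : u ∈ Ext0 h A) :
    M.N (star u) ∈ Ext0 h A := by
  obtain ⟨v, hv, hv2⟩ := ext_np_star hh hA hu
  have h1 : M.N (star u) = v := by
    ext s
    rw [hv2 s, M.N_np (star u) (fun t => by
      show star (u (t + 2 * π)) = star (u t)
      rw [ext_per hh hu]) s]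
    rfl
  rw [h1]
  exact hv

theorem N_star_eq (hh : Adm h) (M : Mk h) {u : ℝ →ᵇ ℂ} (hu : ∀ t, u (t + 2 * π) = u t) :
    M.N (star u) = star (M.N u) := by
  ext s
  rw [M.N_np (star u) (fun t => by
      show star (u (t + 2 * π)) = star (u t)
      rw [hu]) s]
  show np h (fun t => star (u t)) s = star (M.N u s)
  rw [np_star hh u.continuous, M.N_np u hu]

theorem N_N_mem (hh : Adm h) (hA : AdmA h A δ) (M : Mk h) {u : ℝ →ᵇ ℂ} (hu : u ∈ Ext0 h A) :
    M.N (M.N u) ∈ Ext0 h A := by
  have h1 := N_star_mem hh hA M (N_star_mem hh hA M hu)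
  rw [N_star_eq hh M (ext_per hh hu), star_star] at h1
  exact h1

theorem L_ext (hh : Adm h) (hA : AdmA h A δ) (M : Mk h) {u : ℝ →ᵇ ℂ} (hu : u ∈ Ext0 h A) :
    M.L u = 0 := by
  have hmem : ∀ n : ℕ, (M.N ^ (2 * n)) u ∈ Ext0 h A := by
    intro n
    induction n with
    | zero => simpa using hu
    | succ n ih =>
      rw [show 2 * (n + 1) = 2 * n + 1 + 1 by ring, pow_succ', pow_succ']
      exact N_N_mem hh hA M ih
  have hlim : Tendsto (fun n : ℕ => (M.N ^ (2 * n)) u) atTop (nhds (M.L u • (1 : ℝ →ᵇ ℂ))) :=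
    (M.L_tendsto u).comp (tendsto_id.const_mul_atTop' (by norm_num : (0 : ℕ) < 2))
  exact ext_const hh (M.L u) (isClosed_Ext0.mem_of_tendsto hlim (Eventually.of_forall hmem))

/-- `L` is a contraction -/
theorem norm_L_le (M : Mk h) (k : ℝ →ᵇ ℂ) : ‖M.L k‖ ≤ ‖k‖ := by
  have hpi := Real.pi_pos
  have hp : ∀ t, 0 ≤ M.p t := fun t => M.c_pos.le.trans (M.p_ge t)
  have h1 : ∫ t in (0 : ℝ)..(2 * π), M.p t = 1 := by
    have h2 := M.L_eq 1
    rw [M.L_one] at h2
    have h3 : ∀ t, (1 : ℝ →ᵇ ℂ) t * ((M.p t : ℝ) : ℂ) = ((M.p t : ℝ) : ℂ) := fun t => by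
      show (1 : ℂ) * ((M.p t : ℝ) : ℂ) = ((M.p t : ℝ) : ℂ)
      rw [one_mul]
    rw [intervalIntegral.integral_congr (fun t _ => h3 t), intervalIntegral.integral_ofReal] at h2
    exact_mod_cast h2.symm
  rw [M.L_eq]
  calc ‖∫ t in (0 : ℝ)..(2 * π), k t * ((M.p t : ℝ) : ℂ)‖
      ≤ ∫ t in (0 : ℝ)..(2 * π), ‖k‖ * M.p t := by
        apply intervalIntegral.norm_integral_le_of_norm_le (by positivity)
        · filter_upwards with t _
          rw [norm_mul, Complex.norm_real, Real.norm_eq_abs, abs_of_nonneg (hp t)]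
          exact mul_le_mul_of_nonneg_right (k.norm_coe_le_norm t) (hp t)
        · exact (M.p_cont.intervalIntegrable _ _).const_mul _
    _ = ‖k‖ := by rw [intervalIntegral.integral_const_mul, h1, mul_one]

/-- functions with mean zero are limits of exterior functions and conjugates -/
theorem approx_sum (hh : Adm h) (hA : AdmA h A δ) (M : Mk h) (E : ℝ →ᵇ ℂ)
    (hE : ∀ t, E (t + 2 * π) = E t) (hE0 : M.L E = 0) (ε : ℝ) (hε : 0 < ε) :
    ∃ a ∈ Ext0 h A, ∃ b ∈ Ext0 h A, ‖E - (a + star b)‖ ≤ ε := by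
  have hlim := M.L_tendsto E
  rw [hE0, zero_smul, Metric.tendsto_atTop] at hlim
  obtain ⟨n, hn⟩ := hlim (ε / 2) (by positivity)
  have hn' : ‖(M.N ^ n) E‖ ≤ ε / 2 := by
    have := hn n le_rfl
    rw [dist_zero_right] at this
    exact this.le
  have hper : ∀ k : ℕ, ∀ t, (M.N ^ k) E (t + 2 * π) = (M.N ^ k) E t := by
    intro k
    cases k with
    | zero => intro t; simpa using hE t
    | succ k =>
      intro t
      rw [pow_succ']
      exact M.N_per _ t
  have hsum : ∀ m : ℕ, ∃ a ∈ Ext0 h A, ∃ b ∈ Ext0 h A,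
      ‖E - (M.N ^ m) E - (a + star b)‖ ≤ m * (ε / (2 * (n + 1))) := by
    intro m
    induction m with
    | zero =>
      refine ⟨0, (Ext0 h A).zero_mem, 0, (Ext0 h A).zero_mem, ?_⟩
      simp
    | succ m ih =>
      obtain ⟨a, ha, b, hb, hab⟩ := ih
      obtain ⟨a', ha', b', hb', hab'⟩ := ext_dense hh hA ((M.N ^ m) E) (hper m)
        (ε / (2 * (n + 1))) (by positivity)
      refine ⟨a + a', (Ext0 h A).add_mem ha ha', b + b', (Ext0 h A).add_mem hb hb', ?_⟩
      have h1 : ‖(M.N ^ m) E - (M.N ^ (m + 1)) E - (a' + star b')‖ ≤ ε / (2 * (n + 1)) := by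
        rw [BoundedContinuousFunction.norm_le (by positivity)]
        intro s
        have h2 := hab' s
        rw [← M.N_np ((M.N ^ m) E) (hper m) s] at h2
        rw [pow_succ']
        exact h2
      have h3 : E - (M.N ^ (m + 1)) E - (a + a' + star (b + b')) =
          (E - (M.N ^ m) E - (a + star b)) +
            ((M.N ^ m) E - (M.N ^ (m + 1)) E - (a' + star b')) := by
        rw [star_add]
        abel
      rw [h3]
      refine (norm_add_le _ _).trans ?_
      have h4 : (((m + 1 : ℕ) : ℝ)) * (ε / (2 * (n + 1))) =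
          m * (ε / (2 * (n + 1))) + ε / (2 * (n + 1)) := by
        rw [Nat.cast_succ]
        ring
      rw [h4]
      exact add_le_add hab h1
  obtain ⟨a, ha, b, hb, hab⟩ := hsum n
  refine ⟨a, ha, b, hb, ?_⟩
  have h3 : E - (a + star b) = (E - (M.N ^ n) E - (a + star b)) + (M.N ^ n) E := by abel
  rw [h3]
  refine (norm_add_le _ _).trans ?_
  have h4 : (n : ℝ) * (ε / (2 * (n + 1))) ≤ ε / 2 := by
    have h5 : (0 : ℝ) < (n : ℝ) + 1 := by positivity
    rw [← mul_div_assoc, div_le_div_iff₀ (by positivity) (by norm_num)]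
    nlinarith
  linarith

/-- the key approximation -/
theorem approx_ext (hh : Adm h) (hA : AdmA h A δ) (M : Mk h) (E : ℝ →ᵇ ℂ)
    (hE : ∀ t, E (t + 2 * π) = E t) (hE0 : M.L E = 0) (hE1 : ∀ v ∈ Ext0 h A, M.L (v * E) = 0)
    (ε : ℝ) (hε : 0 < ε) :
    ∃ a ∈ Ext0 h A, (M.L (star (E - a) * (E - a))).re ≤ ε := by
  obtain ⟨a, ha, b, hb, hab⟩ := approx_sum hh hA M E hE hE0 (Real.sqrt ε) (Real.sqrt_pos.2 hε)
  refine ⟨a, ha, ?_⟩
  have hLab : M.L (b * a) = 0 := L_ext hh hA M (ext_mul hh hb ha)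
  have hLE : M.L (b * E) = 0 := hE1 b hb
  have e1 : star (E - (a + star b)) * (E - (a + star b)) =
      star (E - a) * (E - a) + star b * b - (b * E - b * a) - (star (b * E - b * a)) := by
    simp only [star_sub, star_add, star_mul', star_star]
    ring
  have hstar : ∀ k : ℝ →ᵇ ℂ, M.L (star k) = star (M.L k) := by
    intro k
    rw [M.L_eq, M.L_eq]
    have h1 : star (∫ t in (0 : ℝ)..(2 * π), k t * ((M.p t : ℝ) : ℂ)) =
        ∫ t in (0 : ℝ)..(2 * π), star (k t * ((M.p t : ℝ) : ℂ)) :=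
      (Complex.conjCLE.toContinuousLinearMap.intervalIntegral_comp_comm
        ((k.continuous.mul (Complex.continuous_ofReal.comp M.p_cont)).intervalIntegrable _ _)).symm
    rw [h1]
    apply intervalIntegral.integral_congr
    intro t _
    show star (k t) * ((M.p t : ℝ) : ℂ) = star (k t * ((M.p t : ℝ) : ℂ))
    rw [star_mul']
    congr 1
    exact (Complex.conj_ofReal _).symm
  have e2 : M.L (star (E - (a + star b)) * (E - (a + star b))) =
      M.L (star (E - a) * (E - a)) + M.L (star b * b) := by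
    rw [e1, map_sub, map_sub, map_add, hstar, map_sub, hLE, hLab]
    simp
  have h1 : ‖M.L (star (E - (a + star b)) * (E - (a + star b)))‖ ≤ ε := by
    refine (norm_L_le M _).trans ((norm_mul_le _ _).trans ?_)
    rw [norm_star]
    calc ‖E - (a + star b)‖ * ‖E - (a + star b)‖ ≤ Real.sqrt ε * Real.sqrt ε :=
          mul_le_mul hab hab (norm_nonneg _) (Real.sqrt_nonneg _)
      _ = ε := Real.mul_self_sqrt hε.le
  have h2 : 0 ≤ (M.L (star b * b)).re := by
    rw [M.L_eq]
    have hc : Continuous (fun t => (star b * b) t * ((M.p t : ℝ) : ℂ)) :=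
      (star b * b).continuous.mul (Complex.continuous_ofReal.comp M.p_cont)
    have h3 := Complex.reCLM.intervalIntegral_comp_comm (μ := volume)
      (hc.intervalIntegrable 0 (2 * π))
    simp only [Complex.reCLM_apply] at h3
    rw [← h3]
    apply intervalIntegral.integral_nonneg (by positivity)
    intro t _
    have h4 : (star b * b) t = ((‖b t‖ ^ 2 : ℝ) : ℂ) := by
      show star (b t) * b t = _
      rw [Complex.star_def, mul_comm, Complex.mul_conj, Complex.normSq_eq_norm_sq]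
    rw [h4, ← Complex.ofReal_mul, Complex.ofReal_re]
    exact mul_nonneg (by positivity) (M.c_pos.le.trans (M.p_ge t))
  rw [e2] at h1
  have h5 := (Complex.re_le_norm _).trans h1
  rw [Complex.add_re] at h5
  linarith

end Vale.Agent.P123
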