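import Vale.Agent.Lib.P123T.Eg

/-!
P123 (Crouzeix), constant `2`, module C1: the closed span of the functions `(γ - z)⁻¹` is closed
under multiplication and contains no constant except `0`.
-/

namespace Vale.Agent.P123

open MeasureTheory Filter Topology
open scoped Real InnerProductSpace BoundedContinuousFunction

variable {H : Type*} [NormedAddCommGroup H] [InnerProductSpace ℂ H] [CompleteSpace H]
variable {h : ℝ → ℝ} {A : H →L[ℂ] H} {δ : ℝ}

set_option linter.unusedSectionVars false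

theorem ins_zero (hh : Adm h) : Ins h 0 := fun θ => by simpa [sp] using hh.pos θ

/-- uniform distance of an inside point to the curve -/
theorem ins_dist (hh : Adm h) {z : ℂ} (hz : Ins h z) :
    ∃ d : ℝ, 0 < d ∧ ∀ θ, sp θ z + d ≤ h θ := by
  have hc : Continuous (fun θ => h θ - sp θ z) := by
    have h1 : Continuous (fun θ => sp θ z) := by
      rw [continuous_iff_continuousAt]
      exact fun θ => (hasDerivAt_sp z θ).continuousAt
    exact hh.cd0.sub h1
  have hper : Function.Periodic (fun θ => h θ - sp θ z) (2 * π) := by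
    intro θ
    show h (θ + 2 * π) - sp (θ + 2 * π) z = h θ - sp θ z
    rw [hh.per]
    have h2 : ei (-(θ + 2 * π)) = ei (-θ) := by
      have := ei_per (-(θ + 2 * π))
      rw [show -(θ + 2 * π) + 2 * π = -θ by ring] at this
      exact this.symm
    unfold sp
    rw [h2]
  obtain ⟨x, -, hmin⟩ := (isCompact_Icc (a := (0 : ℝ)) (b := 2 * π)).exists_isMinOn
    (Set.nonempty_Icc.2 (by positivity)) hc.continuousOn
  refine ⟨h x - sp x z, sub_pos.2 (hz x), fun θ => ?_⟩
  obtain ⟨y, hy, hs⟩ := hper.exists_mem_Ico₀ (by positivity) θ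
  have h3 : h x - sp x z ≤ h y - sp y z := hmin ⟨hy.1, hy.2.le⟩
  have h4 : h θ - sp θ z = h y - sp y z := hs
  linarith

/-- points close to an inside point are inside, with a uniform bound -/
theorem ins_near {z w : ℂ} {d : ℝ} (hd : ∀ θ, sp θ z + d ≤ h θ)
    (hw : ‖w - z‖ ≤ d / 2) (θ : ℝ) : sp θ w + d / 2 ≤ h θ := by
  have h1 := hd θ
  have h2 := sp_sub θ w z
  have h3 := sp_le_norm θ (w - z)
  linarith

theorem dist_of_sp {w : ℂ} {d : ℝ} (hd : ∀ θ, sp θ w + d ≤ h θ) (t : ℝ) :
    d ≤ ‖cur h t - w‖ := by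
  have h1 := sp_le_norm t (cur h t - w)
  rw [sp_sub, sp_cur_self] at h1
  linarith [hd t]

theorem norm_eg_le (hh : Adm h) {w : ℂ} {d : ℝ} (hd0 : 0 < d) (hd : ∀ θ, sp θ w + d ≤ h θ) :
    ‖eg h w‖ ≤ d⁻¹ := by
  rw [BoundedContinuousFunction.norm_le (by positivity)]
  intro s
  have hw : Ins h w := fun θ => by linarith [hd θ]
  rw [eg_apply hh hw, norm_inv]
  exact inv_anti₀ hd0 (dist_of_sp hd s)

/-- resolvent identity -/
theorem eg_sub_eg (hh : Adm h) {z w : ℂ} (hz : Ins h z) (hw : Ins h w) :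
    eg h z - eg h w = (z - w) • (eg h z * eg h w) := by
  ext t
  have h1 := cur_sub_ne hh z hz t
  have h2 := cur_sub_ne hh w hw t
  simp only [BoundedContinuousFunction.sub_apply, BoundedContinuousFunction.smul_apply,
    BoundedContinuousFunction.mul_apply, eg_apply hh hz, eg_apply hh hw, smul_eq_mul]
  field_simp
  ring

theorem eg_mul_eg_mem_of_ne (hh : Adm h) {z w : ℂ} (hz : Ins h z) (hw : Ins h w)
    (huz : IsUnit (algebraMap ℂ (H →L[ℂ] H) z - A))
    (huw : IsUnit (algebraMap ℂ (H →L[ℂ] H) w - A)) (hne : z ≠ w) :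
    eg h z * eg h w ∈ Ext0 h A := by
  have h1 : eg h z * eg h w = (z - w)⁻¹ • (eg h z - eg h w) := by
    rw [eg_sub_eg hh hz hw, smul_smul, inv_mul_cancel₀ (sub_ne_zero.2 hne), one_smul]
  rw [h1]
  exact (Ext0 h A).smul_mem _ ((Ext0 h A).sub_mem (eg_mem hz huz) (eg_mem hw huw))

theorem eg_mul_eg_mem (hh : Adm h) {z w : ℂ} (hz : Ins h z) (hw : Ins h w)
    (huz : IsUnit (algebraMap ℂ (H →L[ℂ] H) z - A))
    (huw : IsUnit (algebraMap ℂ (H →L[ℂ] H) w - A)) :
    eg h z * eg h w ∈ Ext0 h A := by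
  rcases ne_or_eq z w with hne | rfl
  · exact eg_mul_eg_mem_of_ne hh hz hw huz huw hne
  obtain ⟨d, hd0, hd⟩ := ins_dist hh hz
  have hd20 : 0 < d / 2 := by positivity
  -- the nearby points
  have hev1 : ∀ᶠ w in 𝓝[≠] z, ‖w - z‖ ≤ d / 2 := by
    have : ∀ᶠ w in 𝓝 z, ‖w - z‖ ≤ d / 2 := by
      filter_upwards [Metric.closedBall_mem_nhds z hd20] with w hw
      rwa [mem_closedBall_iff_norm] at hw
    exact this.filter_mono nhdsWithin_le_nhds
  have hev2 : ∀ᶠ w in 𝓝[≠] z, IsUnit (algebraMap ℂ (H →L[ℂ] H) w - A) := by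
    have h1 : IsOpen (resolventSet ℂ A) := spectrum.isOpen_resolventSet A
    have h2 : resolventSet ℂ A ∈ 𝓝 z := h1.mem_nhds huz
    have : ∀ᶠ w in 𝓝 z, IsUnit (algebraMap ℂ (H →L[ℂ] H) w - A) := by
      filter_upwards [h2] with w hw
      exact hw
    exact this.filter_mono nhdsWithin_le_nhds
  have hev3 : ∀ᶠ w in 𝓝[≠] z, w ≠ z := self_mem_nhdsWithin
  have hlim : Tendsto (fun w => eg h w * eg h z) (𝓝[≠] z) (𝓝 (eg h z * eg h z)) := by
    have h3 : Tendsto (fun w => eg h w) (𝓝[≠] z) (𝓝 (eg h z)) := by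
      rw [tendsto_iff_norm_sub_tendsto_zero]
      have h4 : Tendsto (fun w => ‖w - z‖ * ((d / 2)⁻¹ * (d / 2)⁻¹)) (𝓝[≠] z) (𝓝 0) := by
        have h5 : Tendsto (fun w => ‖w - z‖ * ((d / 2)⁻¹ * (d / 2)⁻¹)) (𝓝 z)
            (𝓝 (‖z - z‖ * ((d / 2)⁻¹ * (d / 2)⁻¹))) := by
          apply Continuous.tendsto
          fun_prop
        rw [sub_self, norm_zero, zero_mul] at h5
        exact h5.mono_left nhdsWithin_le_nhds
      refine squeeze_zero' (Filter.Eventually.of_forall fun _ => norm_nonneg _) ?_ h4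
      filter_upwards [hev1] with w hw
      have h6 := ins_near hd hw
      have hwi : Ins h w := fun θ => by linarith [h6 θ]
      rw [eg_sub_eg hh hwi hz, norm_smul]
      refine mul_le_mul_of_nonneg_left ?_ (norm_nonneg _)
      refine (norm_mul_le _ _).trans ?_
      refine mul_le_mul (norm_eg_le hh hd20 h6) (norm_eg_le hh hd20 fun θ => ?_)
        (norm_nonneg _) (by positivity)
      linarith [hd θ]
    exact h3.mul tendsto_const_nhds
  refine isClosed_Ext0.mem_of_tendsto hlim ?_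
  filter_upwards [hev1, hev2, hev3] with w h1 h2 h3
  have h6 := ins_near hd h1
  have hwi : Ins h w := fun θ => by linarith [h6 θ]
  exact eg_mul_eg_mem_of_ne hh hwi hz h2 huz h3

theorem ext_mul (hh : Adm h) {u v : ℝ →ᵇ ℂ} (hu : u ∈ Ext0 h A) (hv : v ∈ Ext0 h A) :
    u * v ∈ Ext0 h A := by
  have step1 : ∀ z : ℂ, Ins h z → IsUnit (algebraMap ℂ (H →L[ℂ] H) z - A) →
      ∀ v ∈ Ext0 h A, eg h z * v ∈ Ext0 h A := by
    intro z hz huz
    have hle : Ext0 h A ≤ (Ext0 h A).comap (LinearMap.mulLeft ℂ (eg h z)) := by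
      apply Ext0_le
      · change IsClosed ((fun q => eg h z * q) ⁻¹' (Ext0 h A : Set _))
        exact isClosed_Ext0.preimage (continuous_const.mul continuous_id)
      · intro w hw huw
        exact eg_mul_eg_mem hh hz hw huz huw
    intro v hv
    exact hle hv
  have hle : Ext0 h A ≤ (Ext0 h A).comap (LinearMap.mulRight ℂ v) := by
    apply Ext0_le
    · change IsClosed ((fun p => p * v) ⁻¹' (Ext0 h A : Set _))
      exact isClosed_Ext0.preimage (continuous_id.mul continuous_const)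
    · intro z hz huz
      exact step1 z hz huz v hv
  exact hle hu

/-- Cauchy integral over the curve divided by `γ` as a continuous functional -/
theorem exists_cauchy_zero (hh : Adm h) : ∃ Λ : (ℝ →ᵇ ℂ) →L[ℂ] ℂ,
    ∀ u : ℝ →ᵇ ℂ, Λ u = ∫ t in (0 : ℝ)..(2 * π), u t * (dcur h t / (cur h t - 0)) := by
  have hc := continuous_log_deriv hh 0 (ins_zero hh)
  have hci : ∀ u : ℝ →ᵇ ℂ, Continuous (fun t => u t * (dcur h t / (cur h t - 0))) :=
    fun u => u.continuous.mul hc
  obtain ⟨C, hC⟩ := (isCompact_Icc (a := (0 : ℝ)) (b := 2 * π)).exists_bound_of_continuousOn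
    hc.continuousOn
  have hpi := Real.pi_pos
  have hC0 : 0 ≤ C := (norm_nonneg _).trans (hC 0 ⟨le_rfl, by positivity⟩)
  let L0 : (ℝ →ᵇ ℂ) →ₗ[ℂ] ℂ :=
    { toFun := fun u => ∫ t in (0 : ℝ)..(2 * π), u t * (dcur h t / (cur h t - 0))
      map_add' := fun u v => by
        rw [← intervalIntegral.integral_add ((hci u).intervalIntegrable _ _)
          ((hci v).intervalIntegrable _ _)]
        refine intervalIntegral.integral_congr fun t _ => ?_
        simp only [BoundedContinuousFunction.add_apply, add_mul]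
      map_smul' := fun c u => by
        rw [RingHom.id_apply, smul_eq_mul, ← intervalIntegral.integral_const_mul]
        refine intervalIntegral.integral_congr fun t _ => ?_
        simp only [BoundedContinuousFunction.smul_apply, smul_eq_mul, mul_assoc] }
  refine ⟨L0.mkContinuous (C * (2 * π)) fun u => ?_, fun u => rfl⟩
  have h1 : ‖∫ t in (0 : ℝ)..(2 * π), u t * (dcur h t / (cur h t - 0))‖ ≤
      (‖u‖ * C) * |2 * π - 0| := by
    refine intervalIntegral.norm_integral_le_of_norm_le_const fun t ht => ?_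
    rw [Set.uIoc_of_le (by positivity)] at ht
    rw [norm_mul]
    exact mul_le_mul (u.norm_coe_le_norm t) (hC t ⟨ht.1.le, ht.2⟩) (norm_nonneg _)
      (norm_nonneg _)
  refine h1.trans (le_of_eq ?_)
  rw [sub_zero, abs_of_pos (by positivity)]
  ring

theorem integral_eg_zero (hh : Adm h) {z : ℂ} (hz : Ins h z) :
    ∫ t in (0 : ℝ)..(2 * π), eg h z t * (dcur h t / (cur h t - 0)) = 0 := by
  have h0 := ins_zero hh
  by_cases hz0 : z = 0
  · subst hz0
    have hF : ∀ t, HasDerivAt (fun t => -(cur h t)⁻¹)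
        (eg h 0 t * (dcur h t / (cur h t - 0))) t := by
      intro t
      have hne : cur h t ≠ 0 := by
        have := cur_sub_ne hh 0 h0 t
        rwa [sub_zero] at this
      have h1 := ((hasDerivAt_cur hh t).inv hne).neg
      refine h1.congr_deriv ?_
      rw [eg_apply hh h0, sub_zero]
      field_simp
    have hc : Continuous (fun t => eg h 0 t * (dcur h t / (cur h t - 0))) :=
      (eg h 0).continuous.mul (continuous_log_deriv hh 0 h0)
    rw [intervalIntegral.integral_eq_sub_of_hasDerivAt (fun t _ => hF t)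
      (hc.intervalIntegrable _ _)]
    have h2 : cur h (2 * π) = cur h 0 := by
      have := cur_per hh 0
      rwa [zero_add] at this
    rw [h2, sub_self]
  · have h1 : ∀ t, eg h z t * (dcur h t / (cur h t - 0)) =
        z⁻¹ * (dcur h t / (cur h t - z) - dcur h t / (cur h t - 0)) := by
      intro t
      have hne := cur_sub_ne hh 0 h0 t
      have hne' := cur_sub_ne hh z hz t
      rw [eg_apply hh hz]
      rw [sub_zero] at hne ⊢
      field_simp
      ring
    simp only [h1]
    rw [intervalIntegral.integral_const_mul, intervalIntegral.integral_sub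
      ((continuous_log_deriv hh z hz).intervalIntegrable _ _)
      ((continuous_log_deriv hh 0 h0).intervalIntegrable _ _), integral_inside hh z hz,
      integral_inside hh 0 h0, sub_self, mul_zero]

/-- constants are not exterior functions vanishing at infinity -/
theorem ext_const (hh : Adm h) (c : ℂ) (hc : c • (1 : ℝ →ᵇ ℂ) ∈ Ext0 h A) : c = 0 := by
  obtain ⟨Λ, hΛ⟩ := exists_cauchy_zero hh
  have hle : Ext0 h A ≤ LinearMap.ker (Λ : (ℝ →ᵇ ℂ) →ₗ[ℂ] ℂ) := by
    apply Ext0_le
    · exact Λ.isClosed_ker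
    · intro z hz _
      rw [LinearMap.mem_ker]
      change Λ (eg h z) = 0
      rw [hΛ, integral_eg_zero hh hz]
  have h1 := hle hc
  rw [LinearMap.mem_ker] at h1
  change Λ (c • (1 : ℝ →ᵇ ℂ)) = 0 at h1
  rw [map_smul, hΛ] at h1
  have h2 : ∀ t, (1 : ℝ →ᵇ ℂ) t * (dcur h t / (cur h t - 0)) = dcur h t / (cur h t - 0) := by
    intro t
    have : (1 : ℝ →ᵇ ℂ) t = 1 := rfl
    rw [this, one_mul]
  simp only [h2] at h1
  rw [integral_inside hh 0 (ins_zero hh), smul_eq_mul] at h1
  have hpi : (π : ℂ) ≠ 0 := by exact_mod_cast Real.pi_ne_zero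
  exact (mul_eq_zero.1 h1).resolve_right
    (mul_ne_zero (mul_ne_zero two_ne_zero hpi) Complex.I_ne_zero)

end Vale.Agent.P123
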