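import Vale.Agent.Lib.P123T.ExtMul

/-!
P123 (Crouzeix), constant `2`, module C2: the Cauchy integral over the curve annihilates the
exterior functions.
-/

namespace Vale.Agent.P123

open MeasureTheory Filter Topology
open scoped Real InnerProductSpace BoundedContinuousFunction

variable {H : Type*} [NormedAddCommGroup H] [InnerProductSpace ℂ H] [CompleteSpace H]
variable {h : ℝ → ℝ} {A : H →L[ℂ] H} {δ : ℝ}

/-- the Cauchy integral of a generator vanishes -/
theorem TC_eg (hh : Adm h) (hA : AdmA h A δ) {z : ℂ} (hz : Ins h z)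
    (hu : IsUnit (algebraMap ℂ (H →L[ℂ] H) z - A)) : TC h A (eg h z) = 0 := by
  have hc1 : Continuous (fun s => dcur h s • res h A 1 s) :=
    (continuous_dcur hh).smul (continuous_res hh hA zero_le_one le_rfl)
  have hc2 := continuous_log_deriv hh z hz
  have hc3 : Continuous (fun s => (dcur h s / (cur h s - z)) • (1 : H →L[ℂ] H)) :=
    hc2.smul continuous_const
  have hc4 := continuous_TC_integrand hh hA (eg h z)
  -- the pointwise identity
  have hI : ∀ s : ℝ, (((eg h z) s * dcur h s) • res h A 1 s) *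
      (algebraMap ℂ (H →L[ℂ] H) z - A) =
      (dcur h s / (cur h s - z)) • (1 : H →L[ℂ] H) - dcur h s • res h A 1 s := by
    intro s
    rw [eg_apply hh hz]
    have hne := cur_sub_ne hh z hz s
    have e1 : res h A 1 s * (algebraMap ℂ (H →L[ℂ] H) (cur h s) - A) = 1 := by
      have := res_mul_pen hA zero_le_one le_rfl s
      unfold pen at this
      rwa [Complex.ofReal_one, one_smul] at this
    have e2 : algebraMap ℂ (H →L[ℂ] H) z - A =
        (algebraMap ℂ (H →L[ℂ] H) (cur h s) - A) - (cur h s - z) • (1 : H →L[ℂ] H) := by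
      rw [Algebra.algebraMap_eq_smul_one, Algebra.algebraMap_eq_smul_one, sub_smul]
      abel
    rw [e2, smul_mul_assoc, mul_sub, e1, mul_smul_comm, mul_one, smul_sub, smul_smul]
    congr 1
    · congr 1
      rw [div_eq_inv_mul]
    · congr 1
      field_simp
  have h1 : (∫ t in (0 : ℝ)..(2 * π), ((eg h z) t * dcur h t) • res h A 1 t) *
      (algebraMap ℂ (H →L[ℂ] H) z - A) = 0 := by
    have h2 := ContinuousLinearMap.intervalIntegral_comp_comm
      ((ContinuousLinearMap.mul ℂ (H →L[ℂ] H)).flip (algebraMap ℂ (H →L[ℂ] H) z - A))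
      (f := fun t => ((eg h z) t * dcur h t) • res h A 1 t) (μ := volume) (a := 0) (b := 2 * π)
      (hc4.intervalIntegrable _ _)
    have h3 : (∫ t in (0 : ℝ)..(2 * π), ((eg h z) t * dcur h t) • res h A 1 t) *
      (algebraMap ℂ (H →L[ℂ] H) z - A) = ∫ t in (0 : ℝ)..(2 * π),
        (((eg h z) t * dcur h t) • res h A 1 t) * (algebraMap ℂ (H →L[ℂ] H) z - A) := h2.symm
    rw [h3, intervalIntegral.integral_congr (fun s _ => hI s), intervalIntegral.integral_sub
      (hc3.intervalIntegrable _ _) (hc1.intervalIntegrable _ _),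
      intervalIntegral.integral_smul_const, integral_inside hh z hz, integral_res hh hA, sub_self]
  have h4 : ∫ t in (0 : ℝ)..(2 * π), ((eg h z) t * dcur h t) • res h A 1 t = 0 := by
    have h5 := congrArg (· * Ring.inverse (algebraMap ℂ (H →L[ℂ] H) z - A)) h1
    simp only [zero_mul] at h5
    rwa [mul_assoc, Ring.mul_inverse_cancel _ hu, mul_one] at h5
  rw [TC, h4, smul_zero]

/-- the Cauchy integral annihilates the exterior functions -/
theorem ext_TC (hh : Adm h) (hA : AdmA h A δ) {v : ℝ →ᵇ ℂ} (hv : v ∈ Ext0 h A) :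
    TC h A v = 0 := by
  obtain ⟨T, hT⟩ := exists_TCL hh hA
  have hle : Ext0 h A ≤ LinearMap.ker (T : (ℝ →ᵇ ℂ) →ₗ[ℂ] (H →L[ℂ] H)) := by
    apply Ext0_le
    · exact T.isClosed_ker
    · intro z hz hu
      rw [LinearMap.mem_ker]
      change T (eg h z) = 0
      rw [hT, TC_eg hh hA hz hu]
  have h1 := hle hv
  rw [LinearMap.mem_ker] at h1
  change T v = 0 at h1
  rwa [hT] at h1

end Vale.Agent.P123
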