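import Vale.Agent.Lib.P123T.FinalTwo
import Vale.Agent.Lib.P123T.Compr

/-!
P123: Crouzeix's inequality with the constant `2` in general, and the example for the lower bound.
-/

namespace Vale.Agent.P123

open Polynomial
open scoped InnerProductSpace

universe u

section gen

variable {H : Type u} [NormedAddCommGroup H] [InnerProductSpace ℂ H] [CompleteSpace H]

/-- Crouzeix's inequality -/
theorem crouzeix_two (A : H →L[ℂ] H) (Q : ℂ[X]) (M : ℝ) (hM0 : 0 ≤ M)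
    (hM : ∀ x : H, ‖x‖ = 1 → ‖Q.eval ⟪x, A x⟫_ℂ‖ ≤ M) : ‖aeval A Q‖ ≤ 2 * M := by
  apply ContinuousLinearMap.opNorm_le_bound _ (by positivity)
  intro x₀
  obtain ⟨V, _, _, _, _, B, ι, v₀, h1, h2, h3⟩ := exists_compression A Q x₀
  have key := crouzeix_fin B Q M hM0 (by
    intro v hv
    rw [h3]
    exact hM (ι v) (by rw [ι.norm_map, hv]))
  calc ‖aeval A Q x₀‖ = ‖aeval B Q v₀‖ := by rw [← h2, ι.norm_map]
    _ ≤ ‖aeval B Q‖ * ‖v₀‖ := ContinuousLinearMap.le_opNorm _ _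
    _ ≤ 2 * M * ‖v₀‖ := mul_le_mul_of_nonneg_right key (norm_nonneg _)
    _ = 2 * M * ‖x₀‖ := by rw [← h1, ι.norm_map]

/-- the supremum of `|Q|` on the numerical range exists, and the bound holds with it -/
theorem exists_isLUB_two [Nontrivial H] (A : H →L[ℂ] H) (Q : ℂ[X]) :
    ∃ M : ℝ, IsLUB ((fun z : ℂ => ‖Q.eval z‖) '' {z : ℂ | ∃ x : H, ‖x‖ = 1 ∧ ⟪x, A x⟫_ℂ = z}) M ∧
      ‖aeval A Q‖ ≤ 2 * M := by
  have hbd : ∀ x : H, ‖x‖ = 1 → ‖⟪x, A x⟫_ℂ‖ ≤ ‖A‖ := by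
    intro x hx
    calc ‖⟪x, A x⟫_ℂ‖ ≤ ‖x‖ * ‖A x‖ := norm_inner_le_norm _ _
      _ ≤ ‖x‖ * (‖A‖ * ‖x‖) := mul_le_mul_of_nonneg_left (A.le_opNorm x) (norm_nonneg _)
      _ = ‖A‖ := by rw [hx]; ring
  have hne : ((fun z : ℂ => ‖Q.eval z‖) ''
      {z : ℂ | ∃ x : H, ‖x‖ = 1 ∧ ⟪x, A x⟫_ℂ = z}).Nonempty := by
    obtain ⟨x, hx⟩ := exists_norm_eq H zero_le_one
    exact ⟨_, ⟨_, ⟨x, hx, rfl⟩, rfl⟩⟩
  have hba : BddAbove ((fun z : ℂ => ‖Q.eval z‖) ''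
      {z : ℂ | ∃ x : H, ‖x‖ = 1 ∧ ⟪x, A x⟫_ℂ = z}) := by
    have hc : IsCompact (Metric.closedBall (0 : ℂ) ‖A‖) := isCompact_closedBall _ _
    have h1 : BddAbove ((fun z : ℂ => ‖Q.eval z‖) '' Metric.closedBall (0 : ℂ) ‖A‖) :=
      (hc.image (Q.continuous.norm)).bddAbove
    refine h1.mono (Set.image_mono ?_)
    rintro z ⟨x, hx, rfl⟩
    simpa using hbd x hx
  refine ⟨sSup _, isLUB_csSup hne hba, ?_⟩
  obtain ⟨y, hy⟩ := hne
  have hy0 : 0 ≤ y := by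
    obtain ⟨z, -, rfl⟩ := hy
    exact norm_nonneg _
  refine crouzeix_two A Q _ (hy0.trans (le_csSup hba hy)) ?_
  intro x hx
  exact le_csSup hba ⟨_, ⟨x, hx, rfl⟩, rfl⟩

end gen

/-- the example for the lower bound: an operator `A` on a two-dimensional space with
`‖A‖ ≥ 1` and `|⟨Ax, x⟩| ≤ 1/2` for all unit vectors -/
theorem exists_lower : ∃ A : EuclideanSpace ℂ (ULift.{u} (Fin 2)) →L[ℂ]
    EuclideanSpace ℂ (ULift.{u} (Fin 2)), 1 ≤ ‖A‖ ∧ ∀ x, ‖x‖ = 1 → ‖⟪x, A x⟫_ℂ‖ ≤ 1 / 2 := by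
  set e₀ : EuclideanSpace ℂ (ULift.{u} (Fin 2)) := EuclideanSpace.single (ULift.up 0) 1 with he₀
  set e₁ : EuclideanSpace ℂ (ULift.{u} (Fin 2)) := EuclideanSpace.single (ULift.up 1) 1 with he₁
  have hA : ∀ x, (innerSL ℂ e₁).smulRight e₀ x = ⟪e₁, x⟫_ℂ • e₀ := fun x => rfl
  refine ⟨(innerSL ℂ e₁).smulRight e₀, ?_, ?_⟩
  · have h1 := ((innerSL ℂ e₁).smulRight e₀).le_opNorm e₁
    rw [hA] at h1
    have n0 : ‖e₀‖ = 1 := by simp [he₀]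
    have n1 : ‖e₁‖ = 1 := by simp [he₁]
    rw [inner_self_eq_norm_sq_to_K, n1, norm_smul, n0] at h1
    simpa using h1
  · intro x hx
    rw [hA, inner_smul_right, norm_mul]
    have i1 : ⟪e₁, x⟫_ℂ = x (ULift.up 1) := by
      rw [he₁, EuclideanSpace.inner_single_left]; simp
    have i0 : ⟪x, e₀⟫_ℂ = star (x (ULift.up 0)) := by
      rw [he₀, EuclideanSpace.inner_single_right]; simp
    rw [i1, i0, norm_star]
    have hs : ‖x (ULift.up 0)‖ ^ 2 + ‖x (ULift.up 1)‖ ^ 2 = 1 := by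
      have := EuclideanSpace.norm_sq_eq x
      rw [hx] at this
      rw [← Equiv.ulift.symm.sum_comp] at this
      rw [Fin.sum_univ_two] at this
      simpa using this.symm
    nlinarith [sq_nonneg (‖x (ULift.up 0)‖ - ‖x (ULift.up 1)‖)]

end Vale.Agent.P123
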