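import Vale.Agent.Lib.P123T.AbsTwo
import Vale.Agent.Lib.P123T.Dens
import Vale.Agent.Lib.P123T.Doeblin
import Vale.Agent.Lib.P123T.ExtGG
import Vale.Agent.Lib.P123T.ExtL
import Vale.Agent.Lib.P123T.ExtTC
import Vale.Agent.Lib.P123.FinalB

/-!
P123: assembly of the proof of the constant `2` inside an admissible curve.
-/

namespace Vale.Agent.P123

open MeasureTheory Polynomial
open scoped Real InnerProductSpace BoundedContinuousFunction

section asm

variable {H : Type*} [NormedAddCommGroup H] [InnerProductSpace ℂ H] [CompleteSpace H]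
variable {h : ℝ → ℝ} {A : H →L[ℂ] H} {δ : ℝ}

theorem Mk.L_re_nonneg (M : Mk h) (k : ℝ →ᵇ ℂ) (hk : ∀ t, 0 ≤ (k t).re) : 0 ≤ (M.L k).re := by
  rw [M.L_eq]
  have hc : Continuous fun t => k t * ((M.p t : ℝ) : ℂ) :=
    k.continuous.mul (Complex.continuous_ofReal.comp M.p_cont)
  have e : (∫ t in (0 : ℝ)..(2 * π), k t * ((M.p t : ℝ) : ℂ)).re
      = ∫ t in (0 : ℝ)..(2 * π), (k t * ((M.p t : ℝ) : ℂ)).re := by
    have := Complex.reCLM.intervalIntegral_comp_comm (hc.intervalIntegrable (μ := volume) 0 (2 * π))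
    rw [Complex.reCLM_apply] at this
    rw [← this]
    rfl
  rw [e]
  apply intervalIntegral.integral_nonneg (by positivity)
  intro t _
  rw [Complex.re_mul_ofReal]
  exact mul_nonneg (hk t) (M.c_pos.le.trans (M.p_ge t))

theorem Mk.N_star (hh : Adm h) (M : Mk h) {u : ℝ →ᵇ ℂ} (hu : u ∈ Ext0 h A) (s : ℝ) :
    M.N (star u) s = np h (fun t => star (u t)) s := by
  rw [M.N_np]
  · rfl
  · intro t
    change star (u (t + 2 * π)) = star (u t)
    rw [ext_per hh hu]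

/-- the algebra of pairs -/
noncomputable def GA (hh : Adm h) (hA : AdmA h A δ) : Subalgebra ℂ ((ℝ →ᵇ ℂ) × (H →L[ℂ] H)) :=
  (GG h A).toSubalgebra (one_mem_GG hh hA) (fun _ _ hx hy => mul_mem_GG hh hA hx hy)

theorem TC_one' (hh : Adm h) (hA : AdmA h A δ) : TC h A (1 : ℝ →ᵇ ℂ) = 1 :=
  TC_one hh hA

/-- the abstract data of an operator inside an admissible curve -/
theorem exists_data (hh : Adm h) (hA : AdmA h A δ) : Nonempty (Data (GA hh hA)) := by
  obtain ⟨M⟩ := exists_markov hh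
  obtain ⟨C, hC0, hC⟩ := Dn_bound hh hA M
  have hext : ∀ x y, ∀ v ∈ Ext0 h A, M.L (v * Dn h A M x y) = 0 := by
    intro x y v hv
    rw [L_mul_Dn hh hA M x y v, ext_TC hh hA hv]
    simp
  have hLD : ∀ x y, M.L (Dn h A M x y) = ⟪y, x⟫_ℂ := by
    intro x y
    have e := L_mul_Dn hh hA M x y 1
    rw [one_mul, TC_one' hh hA] at e
    exact e
  exact ⟨{
    L := M.L
    N := M.N
    X0 := Ext0 h A
    D := Dn h A M
    L_one := M.L_one
    L_pos := M.L_re_nonneg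
    N_one := M.N_one
    N_pos := M.N_pos
    L_N := M.L_N
    X0_mul := fun u hu v hv => ext_mul hh hu hv
    X0_L := fun u hu => L_ext hh hA M hu
    X0_N := by
      intro u hu
      obtain ⟨v, hv, he⟩ := ext_np_star hh hA hu
      have : M.N (star u) = v := by
        ext s
        rw [M.N_star hh hu, he]
      rw [this]
      exact hv
    X0_G := by
      intro u hu
      obtain ⟨q, hq, he⟩ := ext_GG hh hA hu
      refine ⟨q, hq, ?_⟩
      ext s
      rw [he, BoundedContinuousFunction.add_apply, M.N_star hh hu]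
      rfl
    D_ext := hext
    D_G := by
      intro q hq x y
      rw [L_mul_Dn hh hA M x y q.1, ← snd_eq_TC hh hA hq]
    D_approx := by
      intro x y ε hε
      apply approx_ext hh hA M
      · intro t
        simp only [BoundedContinuousFunction.sub_apply, BoundedContinuousFunction.smul_apply,
          BoundedContinuousFunction.coe_one, Pi.one_apply]
        rw [Dn_per hh hA M x y]
      · rw [map_sub, map_smul, M.L_one, hLD, smul_eq_mul, mul_one, sub_self]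
      · intro v hv
        rw [mul_sub, map_sub, hext x y v hv, mul_smul_comm, mul_one, map_smul, L_ext hh hA M hv]
        simp
      · exact hε
    C := C
    C_nonneg := hC0
    D_bound := hC
    D_add := by
      intro x y z
      ext t
      rw [BoundedContinuousFunction.add_apply, Dn_apply hh hA, Dn_apply hh hA, Dn_apply hh hA,
        inner_add_left]
      ring
    D_smul := by
      intro c x y
      ext t
      rw [BoundedContinuousFunction.smul_apply, Dn_apply hh hA, Dn_apply hh hA,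
        inner_smul_left, smul_eq_mul]
      change (starRingEnd ℂ) c * _ * _ / _ = (starRingEnd ℂ) c * _
      ring
    D_re := Dn_re_nonneg hh hA M
    D_cs := Dn_cs hh hA M
    D_comm := fun q hq x y => Dn_comm hh hA M hq x y }⟩

/-- the bound inside an admissible curve -/
theorem bound_two_of_adm [FiniteDimensional ℂ H] (hh : Adm h) (hA : AdmA h A δ) (Q : ℂ[X]) (M : ℝ)
    (hM : ∀ s, ‖Q.eval (cur h s)‖ ≤ M) : ‖aeval A Q‖ ≤ 2 * M := by
  have hM0 : 0 ≤ M := le_trans (norm_nonneg _) (hM 0)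
  obtain ⟨S⟩ := exists_data hh hA
  have hv : ((bcf (cur h), A) : (ℝ →ᵇ ℂ) × (H →L[ℂ] H)) ∈ GA hh hA := cur_mem_GG hh hA
  have hp₀ := aeval_mem_G (GA hh hA) hv Q
  have key := abs_two_fin (GA hh hA) S _ hp₀
  have e3 : (aeval ((bcf (cur h), A) : (ℝ →ᵇ ℂ) × (H →L[ℂ] H)) Q).2 = aeval A Q := by
    have h1 : (aeval ((bcf (cur h), A) : (ℝ →ᵇ ℂ) × (H →L[ℂ] H)) Q).2
        = (AlgHom.snd ℂ (ℝ →ᵇ ℂ) (H →L[ℂ] H)) (aeval (bcf (cur h), A) Q) := rfl
    rw [h1, ← Polynomial.aeval_algHom_apply]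
    rfl
  have e4 : ‖(aeval ((bcf (cur h), A) : (ℝ →ᵇ ℂ) × (H →L[ℂ] H)) Q).1‖ ≤ M := by
    rw [BoundedContinuousFunction.norm_le hM0]
    intro t
    rw [aeval_fst_apply, bcf_cur_apply hh]
    exact hM t
  rw [e3] at key
  linarith

end asm

section curve

variable {H : Type*} [NormedAddCommGroup H] [InnerProductSpace ℂ H] [CompleteSpace H]

omit [CompleteSpace H] in
/-- from admissible curves to the numerical range, the case `0 ∈ W(A)` -/
theorem crouzeix_of_bound_zero {K : ℝ} (hK : 0 < K) (A : H →L[ℂ] H)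
    (hb : ∀ (h : ℝ → ℝ) (δ : ℝ), Adm h → AdmA h A δ → ∀ (Q : ℂ[X]) (M : ℝ),
      (∀ s, ‖Q.eval (cur h s)‖ ≤ M) → ‖aeval A Q‖ ≤ K * M) (Q : ℂ[X]) (M : ℝ)
    (hM : ∀ x : H, ‖x‖ = 1 → ‖Q.eval ⟪x, A x⟫_ℂ‖ ≤ M)
    (h0 : ∃ x : H, ‖x‖ = 1 ∧ ⟪x, A x⟫_ℂ = 0) : ‖aeval A Q‖ ≤ K * M := by
  have hbd : ∀ x : H, ‖x‖ = 1 → ‖⟪x, A x⟫_ℂ‖ ≤ ‖A‖ := by
    intro x hx
    calc ‖⟪x, A x⟫_ℂ‖ ≤ ‖x‖ * ‖A x‖ := norm_inner_le_norm _ _
      _ ≤ ‖x‖ * (‖A‖ * ‖x‖) := mul_le_mul_of_nonneg_left (A.le_opNorm x) (norm_nonneg _)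
      _ = ‖A‖ := by rw [hx]; ring
  apply le_of_forall_pos_le_add
  intro η hη
  obtain ⟨ε, hε, hnear⟩ := exists_near Q ‖A‖ (η / K) (div_pos hη hK)
  obtain ⟨h, hh, ⟨δ, hδ, hin⟩, hout⟩ := exists_adm
    {z : ℂ | ∃ x : H, ‖x‖ = 1 ∧ ⟪x, A x⟫_ℂ = z} (toeplitz_hausdorff A)
    ⟨‖A‖, by rintro w ⟨x, hx, rfl⟩; exact hbd x hx⟩ h0 ε hε
  have hA : AdmA h A δ :=
    { δ_pos := hδ
      le_h := fun θ => (hin θ).1
      num := fun θ x hx => (hin θ).2 _ ⟨x, hx, rfl⟩ }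
  have hb := hb h δ hh hA Q (M + η / K) (by
    intro s
    obtain ⟨w, ⟨x, hx, hxw⟩, hw⟩ := hout (cur h s) (fun θ => sp_cur_le hh θ s)
    have h1 := hnear w (cur h s) (by rw [← hxw]; exact hbd x hx) hw
    have h2 : ‖Q.eval w‖ ≤ M := by rw [← hxw]; exact hM x hx
    linarith)
  calc ‖aeval A Q‖ ≤ K * (M + η / K) := hb
    _ = K * M + η := by field_simp

omit [CompleteSpace H] in
/-- from admissible curves to the numerical range -/
theorem crouzeix_of_bound {K : ℝ} (hK : 0 < K)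
    (hb : ∀ (A : H →L[ℂ] H) (h : ℝ → ℝ) (δ : ℝ), Adm h → AdmA h A δ → ∀ (Q : ℂ[X]) (M : ℝ),
      (∀ s, ‖Q.eval (cur h s)‖ ≤ M) → ‖aeval A Q‖ ≤ K * M)
    (A : H →L[ℂ] H) (Q : ℂ[X]) (M : ℝ) (hM0 : 0 ≤ M)
    (hM : ∀ x : H, ‖x‖ = 1 → ‖Q.eval ⟪x, A x⟫_ℂ‖ ≤ M) : ‖aeval A Q‖ ≤ K * M := by
  by_cases hne : ∃ x : H, ‖x‖ = 1
  · obtain ⟨x₀, hx₀⟩ := hne
    set w₀ : ℂ := ⟪x₀, A x₀⟫_ℂ with hw₀
    have hin : ∀ x : H, ‖x‖ = 1 →
        ⟪x, (A - algebraMap ℂ (H →L[ℂ] H) w₀) x⟫_ℂ = ⟪x, A x⟫_ℂ - w₀ := by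
      intro x hx
      have h1 : (A - algebraMap ℂ (H →L[ℂ] H) w₀) x = A x - w₀ • x := by
        rw [Algebra.algebraMap_eq_smul_one]
        simp
      rw [h1, inner_sub_right, inner_smul_right, inner_self_eq_norm_sq_to_K, hx]
      simp
    have key := crouzeix_of_bound_zero hK (A - algebraMap ℂ (H →L[ℂ] H) w₀) (hb _)
      (Q.comp (X + C w₀)) M (by
        intro x hx
        rw [hin x hx, eval_comp]
        simp only [eval_add, eval_X, eval_C, sub_add_cancel]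
        exact hM x hx)
      ⟨x₀, hx₀, by rw [hin x₀ hx₀, ← hw₀, sub_self]⟩
    have e : aeval (A - algebraMap ℂ (H →L[ℂ] H) w₀) (Q.comp (X + C w₀)) = aeval A Q := by
      rw [aeval_comp]
      simp only [map_add, aeval_X, aeval_C, sub_add_cancel]
    rw [e] at key
    exact key
  · -- the trivial space
    have hz : ∀ x : H, x = 0 := by
      intro x
      by_contra hx
      exact hne ⟨((‖x‖ : ℂ)⁻¹) • x, by
        rw [norm_smul, norm_inv, Complex.norm_real, norm_norm,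
          inv_mul_cancel₀ (norm_ne_zero_iff.mpr hx)]⟩
    have : aeval A Q = 0 := by
      ext x
      rw [hz ((aeval A Q) x), hz ((0 : H →L[ℂ] H) x)]
    rw [this, norm_zero]
    positivity

/-- Crouzeix's inequality in finite dimension -/
theorem crouzeix_fin [FiniteDimensional ℂ H] (A : H →L[ℂ] H) (Q : ℂ[X]) (M : ℝ) (hM0 : 0 ≤ M)
    (hM : ∀ x : H, ‖x‖ = 1 → ‖Q.eval ⟪x, A x⟫_ℂ‖ ≤ M) : ‖aeval A Q‖ ≤ 2 * M :=
  crouzeix_of_bound two_pos (fun _ _ _ hh hA Q M hM => bound_two_of_adm hh hA Q M hM) A Q M hM0 hM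

end curve

end Vale.Agent.P123
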