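import Vale.Agent.Lib.P123T.Defs
import Vale.Agent.Lib.P123.Conv

namespace Vale.Agent.P123

open MeasureTheory
open scoped Real

variable {h : ℝ → ℝ}

theorem exists_h_lower (hh : Adm h) : ∃ m : ℝ, 0 < m ∧ ∀ t, m ≤ h t := by
  have hpi := Real.pi_pos
  obtain ⟨t₀, -, hmin⟩ := (isCompact_Icc (a := (0 : ℝ)) (b := 2 * π)).exists_isMinOn
    ⟨0, by constructor <;> linarith⟩ hh.cd0.continuousOn
  refine ⟨h t₀, hh.pos t₀, fun t => ?_⟩
  have hp : Function.Periodic h (2 * π) := hh.per
  obtain ⟨y, hy, hy2⟩ := hp.exists_mem_Ico₀ (by positivity) t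
  rw [hy2]
  exact hmin ⟨hy.1, hy.2.le⟩

/-- distance of an outside point to the curve -/
theorem norm_sub_ge_out (hh : Adm h) {q : ℝ} (t s : ℝ) :
    (q - 1) * h s ≤ ‖cur h t - q * cur h s‖ := by
  rw [norm_sub_rev]
  refine le_trans ?_ (sp_le_norm s _)
  rw [sp_sub, sp_smul, sp_cur_self]
  have h1 := sp_cur_le hh s t
  linarith

theorem cur_sub_ne_out (hh : Adm h) {q : ℝ} (hq : 1 < q) (t s : ℝ) :
    cur h t - q * cur h s ≠ 0 := by
  intro h0
  have h1 := norm_sub_ge_out hh (q := q) t s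
  rw [h0, norm_zero] at h1
  have h2 := hh.pos s
  nlinarith

theorem continuous_log_deriv_out (hh : Adm h) {q : ℝ} (hq : 1 < q) (s : ℝ) :
    Continuous (fun t => dcur h t / (cur h t - q * cur h s)) :=
  (continuous_dcur hh).div ((continuous_cur hh).sub continuous_const)
    (fun t => cur_sub_ne_out hh hq t s)

theorem continuous_ker_out (hh : Adm h) {q : ℝ} (hq : 1 < q) (s : ℝ) :
    Continuous (ker h (q * cur h s)) := by
  rw [ker_eq]
  exact Complex.continuous_im.comp (continuous_log_deriv_out hh hq s)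

/-- winding number of the curve about an outside point -/
theorem integral_out (hh : Adm h) {q : ℝ} (hq : 1 < q) (s : ℝ) :
    ∫ t in (0 : ℝ)..(2 * π), dcur h t / (cur h t - q * cur h s) = 0 := by
  have hq0 : (0 : ℝ) < q := by linarith
  have hqc : (q : ℂ) ≠ 0 := by exact_mod_cast hq0.ne'
  have h1 := integral_outside hh s q⁻¹ (by positivity) (inv_lt_one_of_one_lt₀ hq)
  have h2 : ∀ t, dcur h t / (cur h t - q * cur h s) =
      (-(q : ℂ)⁻¹) * (dcur h t / (cur h s - (q⁻¹ : ℝ) * cur h t)) := by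
    intro t
    have h3 : cur h t - q * cur h s = -(q : ℂ) * (cur h s - (q⁻¹ : ℝ) * cur h t) := by
      push_cast
      field_simp
      ring
    rw [h3]
    have h4 : cur h s - (q⁻¹ : ℝ) * cur h t ≠ 0 := by
      intro h0
      rw [h0, mul_zero] at h3
      exact cur_sub_ne_out hh hq t s h3
    field_simp
  rw [intervalIntegral.integral_congr (fun t _ => h2 t), intervalIntegral.integral_const_mul, h1,
    mul_zero]

theorem ker_shift (hh : Adm h) (z : ℂ) (t : ℝ) : ker h z (t + 2 * π) = ker h z t := by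
  rw [ker_eq]
  show (dcur h (t + 2 * π) / (cur h (t + 2 * π) - z)).im = _
  rw [dcur_per hh, cur_per hh]

theorem integral_ker_out (hh : Adm h) {q : ℝ} (hq : 1 < q) (s : ℝ) :
    ∫ t in (s - π)..(s + π), ker h (q * cur h s) t = 0 := by
  have hp : Function.Periodic (ker h (q * cur h s)) (2 * π) := fun t => ker_shift hh _ t
  have h1 := hp.intervalIntegral_add_eq (s - π) 0
  rw [zero_add, show s - π + 2 * π = s + π by ring] at h1
  rw [h1, ker_eq]
  have h2 := Complex.imCLM.intervalIntegral_comp_comm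
    ((continuous_log_deriv_out hh hq s).intervalIntegrable (μ := volume) 0 (2 * π))
  have h3 : ∫ t in (0 : ℝ)..(2 * π), (dcur h t / (cur h t - q * cur h s)).im =
    (∫ t in (0 : ℝ)..(2 * π), dcur h t / (cur h t - q * cur h s)).im := h2
  rw [h3, integral_out hh hq s]
  simp

/-- the kernel outside is dominated by the kernel at the reflected point -/
theorem exists_ker_out_le (hh : Adm h) : ∃ C : ℝ, 0 < C ∧ ∀ q : ℝ, 1 < q → q ≤ 3 / 2 →
    ∀ s t : ℝ, |ker h (q * cur h s) t| ≤ C * ker h (((2 - q : ℝ) : ℂ) * cur h s) t := by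
  obtain ⟨m, hm0, hm⟩ := exists_h_lower hh
  obtain ⟨Mc, hMc0, hMc⟩ := exists_bound_of_periodic (continuous_cur hh) (cur_per hh)
  set B : ℝ := 1 + 2 * Mc / m with hB
  have hB0 : 0 < B := by positivity
  refine ⟨3 * B ^ 2, by positivity, fun q hq1 hq2 s t => ?_⟩
  have hq' : (0 : ℝ) ≤ 2 - q := by linarith
  have hq'1 : (2 : ℝ) - q < 1 := by linarith
  -- numerator
  set b := sp t (cur h s) with hb
  have hbl : b ≤ h t := sp_cur_le hh t s
  have hht := hh.pos t
  have e1 : sp t (q * cur h s) = q * b := sp_smul t q _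
  have e2 : sp t (((2 - q : ℝ) : ℂ) * cur h s) = (2 - q) * b := sp_smul t (2 - q) _
  have hnum : |h t - q * b| ≤ 3 * (h t - (2 - q) * b) := by
    rw [abs_le]
    rcases le_total 0 b with hb0 | hb0
    · constructor <;> nlinarith
    · constructor <;> nlinarith
  -- denominator
  set d := ‖cur h t - q * cur h s‖ with hd
  set d' := ‖cur h t - ((2 - q : ℝ) : ℂ) * cur h s‖ with hd'
  have hd1 : (q - 1) * m ≤ d := by
    refine le_trans ?_ (norm_sub_ge_out hh t s)
    exact mul_le_mul_of_nonneg_left (hm s) (by linarith)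
  have hd0 : 0 < d := lt_of_lt_of_le (mul_pos (by linarith) hm0) hd1
  have hdd : d' ≤ B * d := by
    have h1 : d' ≤ d + 2 * (q - 1) * Mc := by
      have h2 : cur h t - ((2 - q : ℝ) : ℂ) * cur h s =
          (cur h t - q * cur h s) + ((2 * (q - 1) : ℝ) : ℂ) * cur h s := by
        push_cast
        ring
      rw [hd', h2]
      refine (norm_add_le _ _).trans ?_
      rw [norm_mul, Complex.norm_real, Real.norm_eq_abs, abs_of_pos (by linarith)]
      have := mul_le_mul_of_nonneg_left (hMc s) (by linarith : (0 : ℝ) ≤ 2 * (q - 1))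
      linarith
    have h3 : 2 * (q - 1) * Mc ≤ 2 * Mc / m * d := by
      rw [div_mul_eq_mul_div, le_div_iff₀ hm0]
      nlinarith
    rw [hB]
    linarith
  have hd'0 : 0 < d' := by
    rw [hd', norm_pos_iff]
    exact cur_sub_ne hh _ (fun θ => sp_lt_of_scale hh hq' hq'1 θ s) t
  have hρ := hh.rho_pos t
  unfold ker
  rw [e1, e2, ← hd, ← hd', abs_div, abs_mul, abs_of_pos hρ, abs_of_nonneg (sq_nonneg d),
    ← mul_div_assoc, div_le_div_iff₀ (by positivity) (by positivity)]
  have hn0 : 0 ≤ h t - (2 - q) * b := by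
    have := abs_nonneg (h t - q * b)
    linarith
  have h5 : d' ^ 2 ≤ B ^ 2 * d ^ 2 := by
    rw [← mul_pow]
    exact pow_le_pow_left₀ hd'0.le hdd 2
  calc rho h t * |h t - q * b| * d' ^ 2
      ≤ rho h t * (3 * (h t - (2 - q) * b)) * (B ^ 2 * d ^ 2) := by
        apply mul_le_mul
        · exact mul_le_mul_of_nonneg_left hnum hρ.le
        · exact h5
        · positivity
        · have := mul_nonneg hρ.le (mul_nonneg (by norm_num : (0 : ℝ) ≤ 3) hn0)
          exact this
    _ = _ := by ring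

end Vale.Agent.P123
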