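import Vale.Agent.Lib.P123T.Defs

/-!
P123 (Crouzeix): the Neumann kernel is continuous, including the diagonal.
-/

namespace Vale.Agent.P123

open MeasureTheory Filter Topology
open scoped Real InnerProductSpace BoundedContinuousFunction

variable {h : ℝ → ℝ}

theorem kk_per_left (hh : Adm h) (s t : ℝ) : kk h (s + 2 * π) t = kk h s t := by
  unfold kk
  rw [cur_per hh]

theorem ker_per_right (hh : Adm h) (z : ℂ) (t : ℝ) : ker h z (t + 2 * π) = ker h z t := by
  rw [ker_eq]
  show (dcur h (t + 2 * π) / (cur h (t + 2 * π) - z)).im = _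
  rw [dcur_per hh, cur_per hh]

theorem kk_per_right (hh : Adm h) (s t : ℝ) : kk h s (t + 2 * π) = kk h s t := by
  unfold kk
  rw [cur_per hh, ker_per_right hh]

/-- averaged tangent -/
noncomputable def DT (h : ℝ → ℝ) (p : ℝ × ℝ) : ℂ :=
  ∫ v in (0 : ℝ)..1, dcur h (p.1 + v * (p.2 - p.1))

/-- averaged deviation from the tangent line -/
noncomputable def NT (h : ℝ → ℝ) (p : ℝ × ℝ) : ℝ :=
  ∫ v in (0 : ℝ)..1, (1 - v) * Real.sinc ((p.2 - p.1) * (1 - v)) * rho h (p.1 + v * (p.2 - p.1))

theorem continuous_DT (hh : Adm h) : Continuous (DT h) := by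
  refine intervalIntegral.continuous_parametric_intervalIntegral_of_continuous' ?_ 0 1
  exact (continuous_dcur hh).comp
    (by fun_prop : Continuous fun x : (ℝ × ℝ) × ℝ => x.1.1 + x.2 * (x.1.2 - x.1.1))

theorem continuous_NT (hh : Adm h) : Continuous (NT h) := by
  refine intervalIntegral.continuous_parametric_intervalIntegral_of_continuous' ?_ 0 1
  have a1 : Continuous fun x : (ℝ × ℝ) × ℝ => rho h (x.1.1 + x.2 * (x.1.2 - x.1.1)) :=
    (continuous_rho hh).comp
      (by fun_prop : Continuous fun x : (ℝ × ℝ) × ℝ => x.1.1 + x.2 * (x.1.2 - x.1.1))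
  have a2 : Continuous fun x : (ℝ × ℝ) × ℝ => Real.sinc ((x.1.2 - x.1.1) * (1 - x.2)) :=
    Real.continuous_sinc.comp
      (by fun_prop : Continuous fun x : (ℝ × ℝ) × ℝ => (x.1.2 - x.1.1) * (1 - x.2))
  have a3 : Continuous fun x : (ℝ × ℝ) × ℝ => 1 - x.2 := by fun_prop
  exact (a3.mul a2).mul a1

theorem DT_eq (hh : Adm h) (s t : ℝ) : cur h t - cur h s = ((t - s : ℝ) : ℂ) * DT h (s, t) := by
  have h1 : ∀ v : ℝ, HasDerivAt (fun v : ℝ => cur h (s + v * (t - s)))
      (((t - s : ℝ) : ℂ) * dcur h (s + v * (t - s))) v := by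
    intro v
    have h2 : HasDerivAt (fun v : ℝ => s + v * (t - s)) (t - s) v := by
      simpa using ((hasDerivAt_id v).mul_const (t - s)).const_add s
    have h3 := (hasDerivAt_cur hh (s + v * (t - s))).scomp v h2
    rw [Complex.real_smul] at h3
    exact h3
  have h4 := intervalIntegral.integral_eq_sub_of_hasDerivAt (a := 0) (b := 1) (fun v _ => h1 v)
    (Continuous.intervalIntegrable (continuous_const.mul ((continuous_dcur hh).comp
      (by fun_prop : Continuous fun v : ℝ => s + v * (t - s)))) _ _)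
  rw [intervalIntegral.integral_const_mul] at h4
  have e1 : s + 1 * (t - s) = t := by ring
  have e0 : s + 0 * (t - s) = s := by ring
  rw [e1, e0] at h4
  exact h4.symm

theorem sin_eq_mul_sinc (x : ℝ) : Real.sin x = x * Real.sinc x := by
  rcases eq_or_ne x 0 with hx | hx
  · simp [hx]
  · rw [Real.sinc_of_ne_zero hx]
    field_simp

theorem NT_eq (hh : Adm h) (s t : ℝ) :
    h t - sp t (cur h s) = (t - s) ^ 2 * NT h (s, t) := by
  have h1 : ∀ v : ℝ, HasDerivAt (fun v : ℝ => Gaux h (cur h s) t (s + v * (t - s)))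
      ((t - s) ^ 2 * ((1 - v) * Real.sinc ((t - s) * (1 - v)) * rho h (s + v * (t - s)))) v := by
    intro v
    have h2 : HasDerivAt (fun v : ℝ => s + v * (t - s)) (t - s) v := by
      simpa using ((hasDerivAt_id v).mul_const (t - s)).const_add s
    have h3 := (hasDerivAt_Gaux hh (cur h s) t (s + v * (t - s))).scomp v h2
    refine h3.congr_deriv ?_
    rw [smul_eq_mul, show t - (s + v * (t - s)) = (t - s) * (1 - v) by ring, sin_eq_mul_sinc]
    ring
  have hc : Continuous fun v : ℝ => (t - s) ^ 2 * ((1 - v) * Real.sinc ((t - s) * (1 - v)) *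
      rho h (s + v * (t - s))) := by
    have a1 : Continuous fun v : ℝ => rho h (s + v * (t - s)) :=
      (continuous_rho hh).comp (by fun_prop)
    have a2 : Continuous fun v : ℝ => Real.sinc ((t - s) * (1 - v)) :=
      Real.continuous_sinc.comp (by fun_prop)
    have a3 : Continuous fun v : ℝ => 1 - v := by fun_prop
    exact continuous_const.mul ((a3.mul a2).mul a1)
  have h4 := intervalIntegral.integral_eq_sub_of_hasDerivAt (a := 0) (b := 1) (fun v _ => h1 v)
    (hc.intervalIntegrable _ _)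
  rw [intervalIntegral.integral_const_mul] at h4
  have e1 : s + 1 * (t - s) = t := by ring
  have e0 : s + 0 * (t - s) = s := by ring
  rw [e1, e0] at h4
  have hs : Gaux h (cur h s) t s = 0 := by
    unfold Gaux
    rw [sq_cur_self, sp_cur_self]
    ring
  have ht : Gaux h (cur h s) t t = h t - sp t (cur h s) := by
    unfold Gaux
    rw [sub_self, Real.sin_zero, Real.cos_zero]
    ring
  rw [hs, ht, sub_zero] at h4
  exact h4.symm

theorem DT_ne (hh : Adm h) {s t : ℝ} (hst : |t - s| ≤ π) : DT h (s, t) ≠ 0 := by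
  intro h0
  rcases eq_or_ne t s with rfl | hne
  · unfold DT at h0
    simp only [sub_self, mul_zero, add_zero, intervalIntegral.integral_const] at h0
    have h1 : dcur h t = 0 := by simpa using h0
    unfold dcur at h1
    have h2 := hh.rho_pos t
    have h3 : (rho h t : ℂ) ≠ 0 := by exact_mod_cast h2.ne'
    exact mul_ne_zero (mul_ne_zero Complex.I_ne_zero (ei_ne_zero t)) h3 h1
  · have h1 := cur_ne hh (abs_pos.2 (sub_ne_zero.2 hne)) hst
    apply h1
    have h2 := DT_eq hh s t
    rw [h0, mul_zero] at h2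
    exact sub_eq_zero.1 h2

theorem NT_pos (hh : Adm h) {s t : ℝ} (hst : |t - s| ≤ π) : 0 < NT h (s, t) := by
  rcases eq_or_ne t s with rfl | hne
  · unfold NT
    simp only [sub_self, mul_zero, add_zero, zero_mul, Real.sinc_zero, mul_one]
    rw [intervalIntegral.integral_mul_const]
    have : ∫ v in (0 : ℝ)..1, (1 - v) = 1 / 2 := by
      rw [intervalIntegral.integral_sub (by simp) (by simp)]
      simp
      norm_num
    rw [this]
    have := hh.rho_pos t
    positivity
  · have h1 : 0 < h t - sp t (cur h s) := by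
      have := sp_cur_lt hh (abs_pos.2 (sub_ne_zero.2 hne)) hst
      linarith
    rw [NT_eq hh s t] at h1
    have h2 : 0 < (t - s) ^ 2 := by
      have := sub_ne_zero.2 hne
      positivity
    exact (mul_pos_iff_of_pos_left h2).1 h1

/-- the formula for the kernel near the diagonal -/
theorem kk_near (hh : Adm h) {s t : ℝ} (hst : |t - s| ≤ π) :
    kk h s t = rho h t * NT h (s, t) / ‖DT h (s, t)‖ ^ 2 := by
  rcases eq_or_ne t s with rfl | hne
  · have hρ := hh.rho_pos t
    have h1 : kk h t t = 1 / 2 := by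
      unfold kk
      rw [if_pos rfl]
    have h2 : NT h (t, t) = rho h t / 2 := by
      unfold NT
      simp only [sub_self, mul_zero, add_zero, zero_mul, Real.sinc_zero, mul_one]
      rw [intervalIntegral.integral_mul_const]
      have : ∫ v in (0 : ℝ)..1, (1 - v) = 1 / 2 := by
        rw [intervalIntegral.integral_sub (by simp) (by simp)]
        simp
        norm_num
      rw [this]
      ring
    have h3 : ‖DT h (t, t)‖ = rho h t := by
      unfold DT
      simp only [sub_self, mul_zero, add_zero, intervalIntegral.integral_const]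
      unfold dcur
      simp [norm_ei, abs_of_pos hρ]
    rw [h1, h2, h3]
    field_simp
  · have h1 := cur_ne hh (abs_pos.2 (sub_ne_zero.2 hne)) hst
    have h2 : kk h s t = ker h (cur h s) t := by
      unfold kk
      rw [if_neg h1]
    have h3 : (t - s) ^ 2 ≠ 0 := by
      have := sub_ne_zero.2 hne
      positivity
    have h4 : ‖DT h (s, t)‖ ^ 2 ≠ 0 := by
      have := norm_pos_iff.2 (DT_ne hh hst)
      positivity
    rw [h2]
    unfold ker
    rw [NT_eq hh s t, DT_eq hh s t, norm_mul, Complex.norm_real, mul_pow, Real.norm_eq_abs, sq_abs]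
    field_simp

theorem kk_pos (hh : Adm h) (s t : ℝ) : 0 < kk h s t := by
  obtain ⟨n, hn⟩ := exists_shift t s
  have h1 : kk h s t = kk h (s + n * (2 * π)) t := by
    unfold kk
    rw [cur_shift hh]
  rw [h1, kk_near hh hn]
  have h2 := NT_pos hh hn
  have h3 := norm_pos_iff.2 (DT_ne hh hn)
  have h4 := hh.rho_pos t
  positivity

theorem continuous_kk (hh : Adm h) : Continuous (fun x : ℝ × ℝ => kk h x.1 x.2) := by
  rw [continuous_iff_continuousAt]
  rintro ⟨s, t⟩
  obtain ⟨n, hn⟩ := exists_shift t s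
  -- reduce to `|t - s| ≤ π`
  have hred : ∀ s : ℝ, |t - s| ≤ π → ContinuousAt (fun x : ℝ × ℝ => kk h x.1 x.2) (s, t) := by
    intro s hst
    rcases eq_or_ne t s with hts | hne
    · -- the diagonal
      have h1 : ContinuousAt (fun x : ℝ × ℝ => rho h x.2 * NT h x / ‖DT h x‖ ^ 2) (s, t) := by
        refine ContinuousAt.div (((continuous_rho hh).comp continuous_snd).mul
          (continuous_NT hh)).continuousAt (((continuous_DT hh).norm).pow 2).continuousAt ?_
        have := norm_pos_iff.2 (DT_ne hh hst)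
        show ‖DT h (s, t)‖ ^ 2 ≠ 0
        positivity
      refine h1.congr ?_
      have h2 : ∀ᶠ x : ℝ × ℝ in 𝓝 (s, t), |x.2 - x.1| < π := by
        have hc : Continuous fun x : ℝ × ℝ => |x.2 - x.1| := by fun_prop
        refine (hc.tendsto (s, t)).eventually_lt_const ?_
        show |t - s| < π
        rw [hts, sub_self, abs_zero]
        exact Real.pi_pos
      filter_upwards [h2] with x hx
      exact (kk_near hh hx.le).symm
    · have h1 := cur_ne hh (abs_pos.2 (sub_ne_zero.2 hne)) hst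
      have hc1 : Continuous fun x : ℝ × ℝ => cur h x.2 - cur h x.1 :=
        ((continuous_cur hh).comp continuous_snd).sub ((continuous_cur hh).comp continuous_fst)
      have h2 : ContinuousAt (fun x : ℝ × ℝ => (dcur h x.2 / (cur h x.2 - cur h x.1)).im)
          (s, t) := by
        refine Complex.continuous_im.continuousAt.comp (ContinuousAt.div
          ((continuous_dcur hh).comp continuous_snd).continuousAt hc1.continuousAt ?_)
        exact sub_ne_zero.2 h1
      refine h2.congr ?_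
      have h3 : ∀ᶠ x : ℝ × ℝ in 𝓝 (s, t), cur h x.2 - cur h x.1 ≠ 0 :=
        hc1.continuousAt.eventually_ne (sub_ne_zero.2 h1)
      filter_upwards [h3] with x hx
      unfold kk
      rw [if_neg (sub_ne_zero.1 hx), im_div]
  have h1 := hred (s + n * (2 * π)) hn
  have h2 : (fun x : ℝ × ℝ => kk h x.1 x.2) =
      (fun x : ℝ × ℝ => kk h x.1 x.2) ∘ fun x : ℝ × ℝ => (x.1 + n * (2 * π), x.2) := by
    funext x
    show kk h x.1 x.2 = kk h (x.1 + n * (2 * π)) x.2
    unfold kk
    rw [cur_shift hh]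
  rw [h2]
  have h3 : Continuous fun x : ℝ × ℝ => (x.1 + n * (2 * π), x.2) := by fun_prop
  exact ContinuousAt.comp (x := (s, t)) h1 h3.continuousAt

theorem kk_shift_left (hh : Adm h) (s t : ℝ) (n : ℤ) : kk h (s + n * (2 * π)) t = kk h s t := by
  unfold kk
  rw [cur_shift hh]

theorem kk_shift_right (hh : Adm h) (s t : ℝ) (n : ℤ) : kk h s (t + n * (2 * π)) = kk h s t := by
  have hp : Function.Periodic (fun t => kk h s t) (2 * π) := fun t => kk_per_right hh s t
  exact hp.int_mul n t

theorem exists_kk_bounds (hh : Adm h) : ∃ c M : ℝ, 0 < c ∧ ∀ s t, c ≤ kk h s t ∧ kk h s t ≤ M := by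
  have hK : IsCompact (Set.Icc (0 : ℝ) (2 * π) ×ˢ Set.Icc (0 : ℝ) (2 * π)) :=
    isCompact_Icc.prod isCompact_Icc
  have hne : (Set.Icc (0 : ℝ) (2 * π) ×ˢ Set.Icc (0 : ℝ) (2 * π)).Nonempty :=
    ⟨(0, 0), ⟨⟨le_rfl, by positivity⟩, ⟨le_rfl, by positivity⟩⟩⟩
  obtain ⟨x, hx, hmin⟩ := hK.exists_isMinOn hne (continuous_kk hh).continuousOn
  obtain ⟨y, hy, hmax⟩ := hK.exists_isMaxOn hne (continuous_kk hh).continuousOn
  refine ⟨kk h x.1 x.2, kk h y.1 y.2, kk_pos hh _ _, fun s t => ?_⟩
  obtain ⟨n, hn⟩ := exists_shift π s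
  obtain ⟨m, hm⟩ := exists_shift π t
  have hn' := abs_le.1 hn
  have hm' := abs_le.1 hm
  have hmem : (s + n * (2 * π), t + m * (2 * π)) ∈
      (Set.Icc (0 : ℝ) (2 * π) ×ˢ Set.Icc (0 : ℝ) (2 * π)) :=
    ⟨⟨by linarith [hn'.2], by linarith [hn'.1]⟩, ⟨by linarith [hm'.2], by linarith [hm'.1]⟩⟩
  have h1 := hmin hmem
  have h2 := hmax hmem
  have h1' : kk h x.1 x.2 ≤ kk h (s + n * (2 * π)) (t + m * (2 * π)) := h1
  have h2' : kk h (s + n * (2 * π)) (t + m * (2 * π)) ≤ kk h y.1 y.2 := h2
  rw [kk_shift_left hh, kk_shift_right hh] at h1' h2'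
  exact ⟨h1', h2'⟩

theorem exists_kk_lower (hh : Adm h) : ∃ c : ℝ, 0 < c ∧ ∀ s t, c ≤ kk h s t := by
  obtain ⟨c, _, hc, h1⟩ := exists_kk_bounds hh
  exact ⟨c, hc, fun s t => (h1 s t).1⟩

/-- off the diagonal, `kk` is the old kernel -/
theorem kk_eq_ker_ae (hh : Adm h) (s : ℝ) :
    ∀ᵐ t ∂volume, t ∈ Set.uIoc (s - π) (s + π) → ker h (cur h s) t = kk h s t := by
  have h1 : ∀ᵐ t : ℝ ∂volume, t ≠ s := by
    rw [ae_iff]
    simp
  filter_upwards [h1] with t hne ht
  rw [Set.uIoc_of_le (by linarith [Real.pi_pos])] at ht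
  have h2 : |t - s| ≤ π := abs_le.2 ⟨by linarith [ht.1], by linarith [ht.2]⟩
  have h3 := cur_ne hh (abs_pos.2 (sub_ne_zero.2 hne)) h2
  unfold kk
  rw [if_neg h3]

theorem integral_kk (hh : Adm h) (s : ℝ) : ∫ t in (0 : ℝ)..(2 * π), kk h s t = π := by
  have hp : Function.Periodic (fun t => kk h s t) (2 * π) := fun t => kk_per_right hh s t
  have h1 := hp.intervalIntegral_add_eq 0 (s - π)
  rw [zero_add, show s - π + 2 * π = s + π by ring] at h1
  rw [h1, ← intervalIntegral.integral_congr_ae (kk_eq_ker_ae hh s)]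
  exact Th_eq hh s

theorem np_eq_kk (hh : Adm h) (k : ℝ →ᵇ ℂ) (hk : ∀ t, k (t + 2 * π) = k t) (s : ℝ) :
    np h k s = (1 / π : ℂ) * ∫ t in (0 : ℝ)..(2 * π), ((kk h s t : ℝ) : ℂ) * k t := by
  unfold np
  rw [Th_eq hh, div_self Real.pi_ne_zero, sub_self, Complex.ofReal_zero, zero_mul, zero_add]
  congr 1
  have hp : Function.Periodic (fun t => ((kk h s t : ℝ) : ℂ) * k t) (2 * π) := fun t => by
    show ((kk h s (t + 2 * π) : ℝ) : ℂ) * k (t + 2 * π) = _
    rw [kk_per_right hh, hk]
  have h1 := hp.intervalIntegral_add_eq 0 (s - π)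
  rw [zero_add, show s - π + 2 * π = s + π by ring] at h1
  rw [h1]
  refine intervalIntegral.integral_congr_ae ?_
  filter_upwards [kk_eq_ker_ae hh s] with t ht ht2
  rw [ht ht2]

end Vale.Agent.P123
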