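import Mathlib

/-!
P123 (Crouzeix, constant 2), module D0: the `L²` calculus of a positive functional.
-/

namespace Vale.Agent.P123

open scoped BoundedContinuousFunction

section L2

variable {X : Type*} [TopologicalSpace X]

/-- positivity of a functional -/
def LPos (L : (X →ᵇ ℂ) →L[ℂ] ℂ) : Prop := ∀ k : X →ᵇ ℂ, (∀ t, 0 ≤ (k t).re) → 0 ≤ (L k).re

/-- the square of the `L²` seminorm -/
noncomputable def S2 (L : (X →ᵇ ℂ) →L[ℂ] ℂ) (u : X →ᵇ ℂ) : ℝ := (L (star u * u)).re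

variable {L : (X →ᵇ ℂ) →L[ℂ] ℂ}

theorem LPos.im_zero (hL : LPos L) (k : X →ᵇ ℂ) (hk : ∀ t, (k t).im = 0) : (L k).im = 0 := by
  have h1 := hL (Complex.I • k) (fun t => by simp [hk t])
  have h2 := hL (-(Complex.I • k)) (fun t => by simp [hk t])
  rw [map_smul] at h1
  rw [map_neg, map_smul] at h2
  simp at h1 h2
  linarith

theorem LPos.mono (hL : LPos L) (k l : X →ᵇ ℂ) (h : ∀ t, (k t).re ≤ (l t).re) :
    (L k).re ≤ (L l).re := by
  have h1 := hL (l - k) (fun t => by simpa using h t)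
  rw [map_sub] at h1
  simp at h1
  linarith

theorem LPos.star_eq (hL : LPos L) (k : X →ᵇ ℂ) : L (star k) = star (L k) := by
  have h1 : (L (k + star k)).im = 0 := hL.im_zero _ (fun t => by simp)
  have h2 : (L (Complex.I • (k - star k))).im = 0 := hL.im_zero _ (fun t => by simp)
  rw [map_add] at h1
  rw [map_smul, map_sub] at h2
  simp at h1 h2
  apply Complex.ext
  · simp; linarith
  · simp; linarith

theorem LPos.S2_nonneg (hL : LPos L) (u : X →ᵇ ℂ) : 0 ≤ S2 L u := by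
  apply hL
  intro t
  simp only [BoundedContinuousFunction.coe_mul, Pi.mul_apply, BoundedContinuousFunction.star_apply,
    Complex.mul_re, RCLike.star_def, Complex.conj_re, Complex.conj_im]
  nlinarith [mul_self_nonneg (u t).re, mul_self_nonneg (u t).im]

theorem LPos.S2_eq (hL : LPos L) (u : X →ᵇ ℂ) : L (star u * u) = (S2 L u : ℂ) := by
  apply Complex.ext
  · simp [S2]
  · have := hL.im_zero (star u * u) (fun t => by
      simp only [BoundedContinuousFunction.coe_mul, Pi.mul_apply,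
        BoundedContinuousFunction.star_apply,
        Complex.mul_im, RCLike.star_def, Complex.conj_re, Complex.conj_im]
      ring)
    simpa using this

theorem LPos.swap (hL : LPos L) (u v : X →ᵇ ℂ) : L (star v * u) = star (L (star u * v)) := by
  rw [← hL.star_eq, star_mul, star_star]

theorem LPos.S2_add (hL : LPos L) (u v : X →ᵇ ℂ) :
    S2 L (u + v) = S2 L u + S2 L v + 2 * (L (star u * v)).re := by
  have h1 : star (u + v) * (u + v) = star u * u + star v * v + star u * v + star v * u := by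
    rw [star_add]; ring
  unfold S2
  rw [h1, map_add, map_add, map_add, hL.swap u v]
  simp
  ring

theorem LPos.S2_smul (_hL : LPos L) (c : ℂ) (u : X →ᵇ ℂ) : S2 L (c • u) = ‖c‖ ^ 2 * S2 L u := by
  unfold S2
  rw [star_smul, smul_mul_smul_comm, map_smul]
  have h1 : star c * c = ((‖c‖ ^ 2 : ℝ) : ℂ) := by
    rw [RCLike.star_def, Complex.conj_mul']; push_cast; rfl
  rw [h1, smul_eq_mul, Complex.re_ofReal_mul]

theorem LPos.S2_neg (_hL : LPos L) (u : X →ᵇ ℂ) : S2 L (-u) = S2 L u := by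
  unfold S2
  rw [star_neg, neg_mul_neg]

theorem LPos.S2_star (_hL : LPos L) (u : X →ᵇ ℂ) : S2 L (star u) = S2 L u := by
  unfold S2
  rw [star_star, mul_comm]

/-- Cauchy-Schwarz -/
theorem LPos.cs (hL : LPos L) (u v : X →ᵇ ℂ) :
    ‖L (star u * v)‖ ^ 2 ≤ S2 L u * S2 L v := by
  set c := L (star u * v) with hc
  have hq : ∀ r : ℝ, 0 ≤ (‖c‖ ^ 2 * S2 L u) * (r * r) + (-(2 * ‖c‖ ^ 2)) * r + S2 L v := by
    intro r
    have h1 := hL.S2_nonneg ((-((r : ℂ) * c)) • u + v)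
    rw [hL.S2_add, hL.S2_smul] at h1
    have h2 : star ((-((r : ℂ) * c)) • u) * v = (-((r : ℂ) * star c)) • (star u * v) := by
      rw [star_smul, smul_mul_assoc]
      congr 1
      simp
    rw [h2, map_smul, ← hc] at h1
    have h3 : ((-((r : ℂ) * star c)) • c).re = -(r * ‖c‖ ^ 2) := by
      have h4 : (-((r : ℂ) * star c)) • c = ((-(r * ‖c‖ ^ 2) : ℝ) : ℂ) := by
        rw [smul_eq_mul]
        have h5 : star c * c = ((‖c‖ ^ 2 : ℝ) : ℂ) := by
          rw [RCLike.star_def, Complex.conj_mul']; push_cast; rfl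
        calc -((r : ℂ) * star c) * c = -((r : ℂ) * (star c * c)) := by ring
          _ = _ := by rw [h5]; push_cast; ring
      rw [h4, Complex.ofReal_re]
    rw [h3, norm_neg, norm_mul, Complex.norm_real, Real.norm_eq_abs, mul_pow, sq_abs] at h1
    nlinarith
  have hd := discrim_le_zero hq
  unfold discrim at hd
  rcases (sq_nonneg ‖c‖).eq_or_lt with h0 | h0
  · rw [← h0]
    exact mul_nonneg (hL.S2_nonneg u) (hL.S2_nonneg v)
  · have h6 : ‖c‖ ^ 2 * (‖c‖ ^ 2) ≤ ‖c‖ ^ 2 * (S2 L u * S2 L v) := by nlinarith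
    exact le_of_mul_le_mul_left h6 h0

theorem LPos.cs' (hL : LPos L) (u v : X →ᵇ ℂ) :
    ‖L (star u * v)‖ ≤ √(S2 L u) * √(S2 L v) := by
  rw [← Real.sqrt_mul (hL.S2_nonneg u)]
  apply Real.le_sqrt_of_sq_le
  exact hL.cs u v

/-- Cauchy-Schwarz without the star -/
theorem LPos.cs'' (hL : LPos L) (u v : X →ᵇ ℂ) :
    ‖L (u * v)‖ ≤ √(S2 L u) * √(S2 L v) := by
  have := hL.cs' (star u) v
  rwa [star_star, hL.S2_star] at this

/-- triangle inequality -/
theorem LPos.tri (hL : LPos L) (u v : X →ᵇ ℂ) :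
    √(S2 L (u + v)) ≤ √(S2 L u) + √(S2 L v) := by
  apply Real.sqrt_le_left _ |>.2
  · rw [hL.S2_add, add_sq, Real.sq_sqrt (hL.S2_nonneg u), Real.sq_sqrt (hL.S2_nonneg v)]
    have h1 := (Complex.re_le_norm _).trans (hL.cs' u v)
    linarith
  · positivity

theorem LPos.tri_sub (hL : LPos L) (u v : X →ᵇ ℂ) :
    √(S2 L (u - v)) ≤ √(S2 L u) + √(S2 L v) := by
  have := hL.tri u (-v)
  rwa [hL.S2_neg, ← sub_eq_add_neg] at this

theorem LPos.S2_mul_le (hL : LPos L) (u v : X →ᵇ ℂ) : S2 L (u * v) ≤ ‖u‖ ^ 2 * S2 L v := by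
  have h1 : ‖u‖ ^ 2 * S2 L v = (L (((‖u‖ ^ 2 : ℝ) : ℂ) • (star v * v))).re := by
    rw [map_smul, smul_eq_mul, Complex.re_ofReal_mul]; rfl
  rw [h1]
  apply hL.mono
  intro t
  have h2 : ((star (u * v) * (u * v)) t).re = ‖u t‖ ^ 2 * ‖v t‖ ^ 2 := by
    have h3 : (star (u * v) * (u * v)) t = ((‖u t * v t‖ ^ 2 : ℝ) : ℂ) := by
      simp only [BoundedContinuousFunction.coe_mul, Pi.mul_apply,
        BoundedContinuousFunction.star_apply]
      rw [RCLike.star_def, Complex.conj_mul']; push_cast; rfl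
    rw [h3, Complex.ofReal_re, norm_mul, mul_pow]
  have h4 : ((((‖u‖ ^ 2 : ℝ) : ℂ) • (star v * v)) t).re = ‖u‖ ^ 2 * ‖v t‖ ^ 2 := by
    have h3 : (((‖u‖ ^ 2 : ℝ) : ℂ) • (star v * v)) t = ((‖u‖ ^ 2 * ‖v t‖ ^ 2 : ℝ) : ℂ) := by
      simp only [BoundedContinuousFunction.coe_smul, BoundedContinuousFunction.coe_mul,
        Pi.mul_apply, BoundedContinuousFunction.star_apply, smul_eq_mul]
      rw [RCLike.star_def, Complex.conj_mul']; push_cast; rfl
    rw [h3, Complex.ofReal_re]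
  rw [h2, h4]
  have h5 : ‖u t‖ ≤ ‖u‖ := u.norm_coe_le_norm t
  gcongr

theorem LPos.S2_le_norm (hL : LPos L) (hL1 : L 1 = 1) (u : X →ᵇ ℂ) : S2 L u ≤ ‖u‖ ^ 2 := by
  have h1 := hL.S2_mul_le u 1
  have h2 : S2 L (1 : X →ᵇ ℂ) = 1 := by
    unfold S2
    rw [star_one, one_mul, hL1]; simp
  rwa [mul_one, h2, mul_one] at h1

theorem LPos.sqrt_S2_le_norm (hL : LPos L) (hL1 : L 1 = 1) (u : X →ᵇ ℂ) : √(S2 L u) ≤ ‖u‖ := by
  apply (Real.sqrt_le_left (norm_nonneg _)).2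
  exact hL.S2_le_norm hL1 u

/-- `‖L u‖² ≤ S2 u` -/
theorem LPos.norm_sq_le (hL : LPos L) (hL1 : L 1 = 1) (u : X →ᵇ ℂ) : ‖L u‖ ^ 2 ≤ S2 L u := by
  have h1 := hL.cs 1 u
  have h2 : S2 L (1 : X →ᵇ ℂ) = 1 := by
    unfold S2
    rw [star_one, one_mul, hL1]; simp
  rwa [star_one, one_mul, h2, one_mul] at h1

/-- contraction property of a Markov operator with invariant functional -/
theorem S2_N {L : (X →ᵇ ℂ) →L[ℂ] ℂ} (hL : LPos L) (N : (X →ᵇ ℂ) →L[ℂ] (X →ᵇ ℂ)) (hN1 : N 1 = 1)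
    (hN : ∀ k : X →ᵇ ℂ, (∀ t, 0 ≤ (k t).re) → ∀ s, 0 ≤ (N k s).re)
    (hLN : ∀ k : X →ᵇ ℂ, L (N k) = L k) (u : X →ᵇ ℂ) : S2 L (N u) ≤ S2 L u := by
  have h1 : S2 L u = (L (N (star u * u))).re := by rw [hLN]; rfl
  rw [h1]
  apply hL.mono
  intro s
  let Ls : (X →ᵇ ℂ) →L[ℂ] ℂ := (BoundedContinuousFunction.evalCLM ℂ s).comp N
  have hLs : LPos Ls := fun k hk => hN k hk s
  have hLs1 : Ls 1 = 1 := by
    show (N 1) s = 1
    rw [hN1]; rfl
  have h2 := hLs.norm_sq_le hLs1 u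
  have h3 : (star (N u) * N u) s = ((‖N u s‖ ^ 2 : ℝ) : ℂ) := by
    simp only [BoundedContinuousFunction.coe_mul, Pi.mul_apply,
      BoundedContinuousFunction.star_apply]
    rw [RCLike.star_def, Complex.conj_mul']; push_cast; rfl
  rw [h3, Complex.ofReal_re]
  exact h2

end L2

end Vale.Agent.P123
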